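import Vale.Agent.P014T.Rk.Defs
import Vale.Agent.P014T.Es.Md
import Vale.Agent.P004Z.W2.Proj

/-! # P014 T, block Rk: Hecke operators on all the forms of weight two -/

set_option linter.all false

open Complex UpperHalfPlane MeasureTheory Set CongruenceSubgroup Filter Asymptotics Topology
open scoped MatrixGroups Modular ModularForm ComplexConjugate Manifold Real

noncomputable section

namespace Vale.Agent.P014T.Rk

open P004N P004N.H461 Vale.Agent.P004Z Vale.Agent.P004Z.W2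

namespace Aj

variable {N : ℕ} {F G g h : ℍ → ℂ}

/-- holomorphic, bounded at all the cusps -/
structure Bh (f : ℍ → ℂ) : Prop where
  holo : MDiff f
  bdd : ∀ γ : SL(2, ℤ), IsBoundedAtImInfty (f ∣[(2 : ℤ)] γ)

theorem up_det {a b d : ℤ} (h : 0 < a * d) : 0 < (!![a, b; 0, d] : M2).det := by
  rw [Matrix.det_fin_two_of]; simpa using h

theorem Bh.slash (hf : Bh F) {m : M2} (h : 0 < m.det) : Bh (sl F m) := by
  refine ⟨mdiff_sl hf.holo m, fun γ => ?_⟩
  rw [← sl_SL, ← sl_mul _ _ _ h (by simp)]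
  obtain ⟨γ', a, b, d, had, e⟩ := hermite (m * γ.1) (by simpa using h)
  rw [e, sl_mul _ _ _ (by simp) (up_det had), sl_SL, sl_pos _ _ (up_det had)]
  exact IsBoundedAtImInfty.slash 2 (by simp [gl_apply]) (hf.bdd γ')

theorem bh (hF : Mk N 2 F) : Bh F := ⟨hF.holo, hF.bdd⟩

theorem inv (hF : Mk N 2 F) {m : M2} (h : G0 N m) : sl F m = F :=
  (sl_SL F ⟨m, h.1⟩).trans (hF.slash ⟨m, h.1⟩ ((G0_iff N _).2 h))

theorem Bh.add (hF : Bh F) (hG : Bh G) : Bh (F + G) :=
  ⟨hF.holo.add hG.holo, fun γ => by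
    rw [SlashAction.add_slash]; exact (hF.bdd γ).add (hG.bdd γ)⟩

theorem Bh.smul (hF : Bh F) (c : ℂ) : Bh (c • F) :=
  ⟨hF.holo.const_smul c, fun γ => by
    rw [ModularForm.SL_smul_slash]; exact (hF.bdd γ).smul c⟩

theorem Bh.sum {ι : Type*} (s : Finset ι) (f : ι → ℍ → ℂ) (hf : ∀ i, Bh (f i)) :
    Bh (∑ i ∈ s, f i) := by
  classical
  induction s using Finset.induction_on with
  | empty => exact ⟨mdifferentiable_const, fun γ => by
      rw [Finset.sum_empty, SlashAction.zero_slash]; exact bdd_zero⟩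
  | insert i t hi IH => rw [Finset.sum_insert hi]; exact (hf i).add IH

theorem mk (hF : Bh F) (h : ∀ m : M2, G0 N m → sl F m = F) : Mk N 2 F :=
  ⟨hF.holo, fun γ k => (sl_SL F γ).symm.trans (h _ ((G0_iff N γ).1 k)), hF.bdd⟩

theorem mk_add (hF : Mk N 2 F) (hG : Mk N 2 G) : Mk N 2 (F + G) :=
  mk ((bh hF).add (bh hG)) fun m k => by rw [sl_add, inv hF k, inv hG k]

theorem mk_smul (hF : Mk N 2 F) (c : ℂ) : Mk N 2 (c • F) :=
  mk ((bh hF).smul c) fun m k => by rw [sl_smul, inv hF k]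

theorem mk_s2 (hG : S2 N G) : Mk N 2 G :=
  ⟨hG.holo, hG.slash, fun γ => (hG.zero γ).isBoundedAtImInfty⟩

theorem alp {l : ℕ} (hl : l.Prime) (i : Option (Fin l)) : 0 < (al l i).det := by
  rw [al_det]; exact_mod_cast hl.pos

theorem coset {ι : Type*} [Fintype ι] (hf : Mk N 2 F) (α β : ι → M2) (hβ : ∀ i, 0 < (β i).det)
    (h1 : ∀ i, ∃ j, ∃ δ : M2, G0 N δ ∧ α i = δ * β j)
    (h2 : ∀ i i' (δ : M2), G0 N δ → α i = δ * α i' → i = i') :
    ∑ i, sl F (α i) = ∑ i, sl F (β i) := by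
  choose P δ hδ hP using h1
  have hinj : Function.Injective P := by
    intro i i' h
    refine h2 i i' (δ i * (δ i').adjugate) ((hδ i).mul (hδ i').adj) ?_
    rw [hP i', hP i, h, Matrix.mul_assoc, ← Matrix.mul_assoc _ (δ i'), (hδ i').adj_mul,
      Matrix.one_mul]
  rw [← (Equiv.ofBijective P (Finite.injective_iff_bijective.1 hinj)).sum_comp
    (fun i => sl F (β i))]
  refine Finset.sum_congr rfl fun i _ => ?_
  rw [Equiv.ofBijective_apply, hP i, sl_mul _ _ _ (hδ i).det (hβ _), inv hf (hδ i)]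

theorem mk_tp {p : ℕ} (hp : p.Prime) (hpM : ¬ p ∣ N) (hF : Mk N 2 F) : Mk N 2 (Tp p F) := by
  refine mk (Bh.sum _ _ fun j => (bh hF).slash (alp hp j)) fun γ hγ => ?_
  rw [Tp, sl_sum]
  have e : ∀ i, sl (sl F (al p i)) γ = sl F (al p i * γ) := fun i => by
    rw [sl_mul _ _ _ (alp hp i) hγ.det]
  simp only [e]
  refine coset hF _ _ (alp hp) (fun i => ?_) ?_
  · refine al_rep hp hpM _ ?_ ?_
    · rw [Matrix.det_mul, al_det, hγ.1, mul_one]
    · have h1 : (al p i * γ) 1 0 = (al p i) 1 0 * γ 0 0 + (al p i) 1 1 * γ 1 0 := by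
        rw [Matrix.mul_apply, Fin.sum_univ_two]
      have h2 : (al p i) 1 0 = 0 := by cases i <;> simp [al]
      rw [h1, h2, zero_mul, zero_add]
      exact hγ.2.mul_left _
  · intro i i' δ hδ h1
    rw [← Matrix.mul_assoc] at h1
    exact al_inj hp i i' δ hδ.1 (mul_right_cancel_det hγ.det h1)

/-- continuous, bounded at all the cusps -/
def Pq (φ : ℍ → ℂ) : Prop :=
  Continuous φ ∧ ∀ γ : SL(2, ℤ), (fun z => φ (γ • z)) =O[atImInfty] fun _ => (1 : ℝ)

theorem Pq.int {φ : ℍ → ℂ} (h : Pq φ) (Γ : Subgroup SL(2, ℤ)) [Γ.FiniteIndex] :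
    Integrable φ (fm Γ) := by
  have := Subgroup.fintypeQuotientOfFiniteIndex (H := Γ)
  have : IsFiniteMeasure (volume.restrict (𝒟 : Set ℍ)) := ⟨by simpa using P004N.T3.fd_finite⟩
  rw [fm_eq, integrable_finsetSum_measure]
  intro q _
  rw [(embS _).integrable_map_iff]
  have c : Continuous fun z : ℍ => φ (q.out⁻¹ • z) :=
    h.1.comp (continuous_const_smul ((q.out⁻¹ : SL(2, ℤ)) : GL (Fin 2) ℝ))
  obtain ⟨C, k⟩ := ModularGroup.exists_bound_fundamental_domain_of_isBigO c (t := 0)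
    (by simpa only [Real.rpow_zero] using h.2 _)
  refine Integrable.of_bound c.aestronglyMeasurable C ?_
  filter_upwards [ae_restrict_mem meas_fd] with z hz
  simpa using k z hz

theorem Pq.gl {φ : ℍ → ℂ} (h : Pq φ) {m : M2} (d : 0 < m.det) : Pq fun z => φ (gl m d • z) := by
  refine ⟨h.1.comp (continuous_const_smul _), fun γ => ?_⟩
  obtain ⟨γ', a, b, c, had, e⟩ := hermite (m * γ.1) (by simpa using d)
  have := (h.2 γ').comp_tendsto (tendsto_smul_atImInfty (g := H461.gl _ (up_det (b := b) had))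
    (by simp [gl_apply]))
  refine this.congr_left fun z => ?_
  simp only [Function.comp, ModularGroup.sl_moeb, ← mul_smul, ← gl_SL]
  rw [← gl_mul _ _ _ _ (by rw [← e]; simpa using d), ← gl_mul _ _ _ _ (by simpa using d)]
  simp only [e]

theorem pq (hN : 0 < N) (hG : S2 N G) (hg : Bh g) : Pq (petersson 2 G g) := by
  refine ⟨petersson_continuous 2 hG.holo.continuous hg.holo.continuous, fun γ => ?_⟩
  have hN' : (0 : ℝ) < N := by exact_mod_cast hN
  have h := (hG.zero γ).exp_decay_atImInfty hN' (T3.per hG γ) (T3.mdiff_slash hG γ)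
    (T3.bdd_slash hG γ)
  have e : (fun z : ℍ => Real.exp (-2 * π * z.im / N) * z.im ^ 2) =O[atImInfty]
      fun _ => (1 : ℝ) := by
    have a : -(2 * π / N) < 0 := neg_lt_zero.2 (by positivity)
    have := IsBigO.comp_tendsto (isLittleO_exp_mul_rpow_of_lt 2 a).isBigO
      (tendsto_comap : Tendsto UpperHalfPlane.im atImInfty atTop)
    refine this.congr (fun z => ?_) fun z => by simp
    simp only [Function.comp, Real.rpow_two]
    congr 2
    ring
  refine IsBigO.of_norm_left ?_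
  have := ((hg.bdd γ).norm_left.mul (h.norm_left.mul
    (isBigO_refl (fun z : ℍ => z.im ^ 2) _))).trans (e.congr_left fun z => (one_mul _).symm)
  refine this.congr_left fun z => ?_
  rw [← petersson_slash_SL, norm_pt]
  ring

theorem pq' (hN : 0 < N) (hG : S2 N G) (hg : Bh g) {m : M2} (d : 0 < m.det) :
    Pq (petersson 2 (sl G m) g) := by
  have d' : 0 < m.adjugate.det := by simpa [Matrix.det_adjugate] using d
  have e : sl (sl g m.adjugate) m = g := by
    rw [← sl_mul _ _ _ d' d, Matrix.adjugate_mul, show m.det • (1 : M2) = !![m.det, 0; 0, m.det] by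
      ext i j; fin_cases i <;> fin_cases j <;> simp, sl_scalar _ _ d]
  have := (pq hN hG (hg.slash d')).gl d
  simp only [← pt_sl, e] at this
  exact this

theorem p2 [NeZero N] (h : Pq (petersson 2 G g)) :
    pet2 N g G = ∫ z, petersson 2 G g z ∂fm (Gamma0 N) :=
  (int_fm _ h.1.measurable (h.int _)).symm

theorem pet_T (hN : 0 < N) {l : ℕ} (hl : l.Prime) (hlN : ¬ l ∣ N) (hg : Mk N 2 g) (hh : S2 N h) :
    pet2 N (Tp l g) h = pet2 N g (Tp l h) := by
  have : NeZero N := ⟨hN.ne'⟩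
  have l0 : (0 : ℤ) < l := by exact_mod_cast hl.pos
  have ad : ∀ i, 0 < (al l i).det := alp hl
  let Δ := {m : M2 // m.det = l ∧ (N : ℤ) ∣ m 1 0}
  have d : ∀ β : Δ, 0 < β.1.det := fun β => β.2.1.symm ▸ l0
  have a0 : ∀ i, al l i 1 0 = 0 := fun i => by cases i <;> simp [al]
  let e : Gamma0 N × Option (Fin l) ≃ Δ := .ofBijective (fun x => ⟨x.1.1.1 * al l x.2,
    by simp [al_det], by
      simpa [Matrix.mul_apply, a0] using ((G0_iff N _).1 x.1.2).2.mul_right _⟩) ⟨fun x y k => by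
      have k : x.1.1.1 * al l x.2 = y.1.1.1 * al l y.2 := congrArg Subtype.val k
      have i : x.2 = y.2 := al_inj hl _ _ (x.1.1⁻¹ * y.1.1).1 (x.1.1⁻¹ * y.1.1).2 (by
        rw [Matrix.SpecialLinearGroup.coe_mul, Matrix.mul_assoc, ← k, ← Matrix.mul_assoc,
          ← Matrix.SpecialLinearGroup.coe_mul, inv_mul_cancel]
        simp)
      rw [i] at k
      exact Prod.ext (Subtype.ext (Subtype.ext (mul_right_cancel_det (ad _) k))) i, fun β => by
      obtain ⟨j, δ, k, q⟩ := al_rep hl hlN β.1 β.2.1 β.2.2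
      exact ⟨(⟨⟨δ, k.1⟩, (G0_iff N _).2 k⟩, j), Subtype.ext q.symm⟩⟩
  have ev : ∀ γ i, (e (γ, i)).1 = γ.1.1 * al l i := fun _ _ => rfl
  have e1 : ∀ i, (e (1, i)).1 = al l i := fun i => (ev 1 i).trans (by simp)
  let s : Δ ≃ Δ := Function.Involutive.toPerm (fun β => ⟨β.1.adjugate, by
    simp [Matrix.det_adjugate, β.2.1], by simpa [Matrix.adjugate_fin_two] using β.2.2⟩) fun β =>
      Subtype.ext (by
        simp only [Matrix.adjugate_fin_two]
        ext i j
        fin_cases i <;> fin_cases j <;> simp)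
  have sv : ∀ β : Δ, (s β).1 * β.1 = !![(l : ℤ), 0; 0, l] := fun β => by
    refine (Matrix.adjugate_mul β.1).trans ?_
    rw [β.2.1]
    ext i j
    fin_cases i <;> fin_cases j <;> simp
  have iv : ∀ {f}, Mk N 2 f → ∀ γ i, sl f (e (γ, i)).1 = sl f (e (1, i)).1 := fun hf γ i => by
    rw [ev, e1, sl_mul _ _ _ (by simp) (ad i), inv hf ((G0_iff N _).1 γ.2)]
  have b := fun {m : M2} (k : 0 < m.det) => pq hN hh ((bh hg).slash k)
  have b' := fun {m : M2} (k : 0 < m.det) => pq' hN hh (bh hg) k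
  have := (wt_wt (Gamma0 N)).swap (a := fun β => gl β.1 (d β)) e (fun γ i z => by
      rw [ModularGroup.sl_moeb, ← mul_smul, ← gl_SL, ← gl_mul _ _ _ _ (by simpa using d _)]
      simp [ev]) s (fun β z => by
      rw [← mul_smul, ← gl_mul _ _ _ _ (by rw [Matrix.det_mul]; exact mul_pos (d _) (d _))]
      ext1
      have : (l : ℂ) ≠ 0 := by exact_mod_cast hl.pos.ne'
      simp [coe_smul_gl, sv, this])
    (F := fun β => petersson 2 h (sl g β.1)) (F' := fun β => petersson 2 (sl h β.1) g)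
    (fun β => (b (d β)).1.measurable) (fun β => (b' (d β)).1.measurable)
    (fun γ i => by rw [iv hg]) (fun γ i => by rw [iv (mk_s2 hh)])
    (fun β z => by rw [← pt_sl, ← sl_mul _ _ _ (d _) (d _), sv, sl_scalar _ _ l0])
    (fun β => (b (d β)).int _) fun β => (b' (d β)).int _
  rw [p2 (pq hN hh (bh (mk_tp hl hlN hg))), p2 (pq hN (S2.tp hl hlN hh) (bh hg))]
  simp only [Tp, (pt_sum _ _ _ _).1, (pt_sum _ _ _ _).2]
  rw [integral_finsetSum _ fun i _ => (b (ad i)).int _,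
    integral_finsetSum _ fun i _ => (b' (ad i)).int _]
  simpa only [e1, fm] using this

theorem pet_add (hN : 0 < N) (hF : Mk N 2 F) (hg : Mk N 2 g) (hG : S2 N G) :
    pet2 N (F + g) G = pet2 N F G + pet2 N g G := by
  have : NeZero N := ⟨hN.ne'⟩
  rw [p2 (pq hN hG (bh (mk_add hF hg))), p2 (pq hN hG (bh hF)), p2 (pq hN hG (bh hg)),
    ← integral_add ((pq hN hG (bh hF)).int _) ((pq hN hG (bh hg)).int _)]
  simp only [petersson, Pi.add_apply, mul_add, add_mul]

theorem pet_smul [NeZero N] (k : ℂ) (F G : ℍ → ℂ) :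
    pet2 N (k • F) G = k * pet2 N F G ∧ pet2 N F (k • G) = conj k * pet2 N F G := by
  constructor <;>
  · simp only [pet2]
    rw [mul_finsum' _ _ (Set.toFinite _)]
    refine finsum_congr fun q => ?_
    rw [← integral_const_mul]
    refine integral_congr_ae (.of_forall fun z => ?_)
    simp only [petersson, Pi.smul_apply, smul_eq_mul, map_mul]
    ring

theorem per (hF : Mk N 2 F) (g : SL(2, ℤ)) :
    Function.Periodic ((F ∣[(2 : ℤ)] g) ∘ ofComplex) ((N : ℝ) : ℂ) := by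
  have a : (F ∣[(2 : ℤ)] g) ∣[(2 : ℤ)] (ModularGroup.T ^ (N : ℤ)) = F ∣[(2 : ℤ)] g := by
    rw [← SlashAction.slash_mul, show g * ModularGroup.T ^ (N : ℤ) =
      (g * ModularGroup.T ^ (N : ℤ) * g⁻¹) * g by group, SlashAction.slash_mul,
      hF.slash _ (T3.conj_mem N g)]
  have v : ∀ z : ℍ, (F ∣[(2 : ℤ)] g) ((N : ℝ) +ᵥ z) = (F ∣[(2 : ℤ)] g) z := fun z => by
    have h1 := T3.slash_T_apply (F ∣[(2 : ℤ)] g) N z
    rw [a] at h1
    rw [h1]
    push_cast
    rfl
  intro w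
  by_cases hw : 0 < w.im
  · have h2 : 0 < (w + ((N : ℝ) : ℂ)).im := by simpa using hw
    simp only [Function.comp_apply, ofComplex_apply_of_im_pos h2, ofComplex_apply_of_im_pos hw]
    rw [← v ⟨w, hw⟩]
    exact congrArg _ (UpperHalfPlane.ext (by rw [coe_vadd]; exact add_comm _ _))
  · have h2 : (w + ((N : ℝ) : ℂ)).im ≤ 0 := by simpa using hw
    simp only [Function.comp_apply, ofComplex_apply_of_im_nonpos h2,
      ofComplex_apply_of_im_nonpos (not_lt.1 hw)]

theorem lim (hN : 0 < N) (hF : Mk N 2 F) (g : SL(2, ℤ)) :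
    ∃ v, Tendsto (F ∣[(2 : ℤ)] g) atImInfty (𝓝 v) := by
  have hN' : (0 : ℝ) < N := by exact_mod_cast hN
  have h := exp_decay_sub_atImInfty hN' (per hF g) (hF.holo.slash 2 (g : GL (Fin 2) ℝ)) (hF.bdd g)
  have z : IsZeroAtImInfty fun τ => (F ∣[(2 : ℤ)] g) τ - valueAtInfty (F ∣[(2 : ℤ)] g) :=
    IsZeroAtImInfty.of_exp_decay ⟨2 * π / N, by positivity, h.congr_right fun τ => by
      congr 1; ring⟩
  exact ⟨_, tendsto_sub_nhds_zero_iff.1 z⟩

theorem lim_up {v : ℂ} (h : Tendsto F atImInfty (𝓝 v)) {u : M2} (d : 0 < u.det) (z : u 1 0 = 0) :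
    Tendsto (sl F u) atImInfty (𝓝 (v * u.det * ((u 1 1 : ℂ) ^ 2)⁻¹)) := by
  refine (((h.comp (tendsto_smul_atImInfty (g := gl u d) (by simp [gl_apply, z]))).mul_const
    _).mul_const _).congr fun w => ?_
  rw [sl_apply F u d w _ (coe_smul_gl u d w), z]
  simp

/-- the weights of the Hecke neighbours of a cusp -/
theorem wsum {l : ℕ} (hl : l.Prime) (g : SL(2, ℤ)) :
    ∑ j : Option (Fin l), (if (l : ℤ) ∣ (al l j * g.1) 0 0 ∧ (l : ℤ) ∣ (al l j * g.1) 1 0 then
      (l : ℂ) else (l : ℂ)⁻¹) = l + 1 := by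
  classical
  have l0 : (l : ℂ) ≠ 0 := by exact_mod_cast hl.pos.ne'
  have pr := Nat.prime_iff_prime_int.1 hl
  have cop : ¬ ((l : ℤ) ∣ g 0 0 ∧ (l : ℤ) ∣ g 1 0) := fun k => pr.not_dvd_one (by
    have := g.2
    rw [Matrix.det_fin_two] at this
    exact this ▸ dvd_sub (k.1.mul_right _) (k.2.mul_left _))
  obtain ⟨j₀, k⟩ : ∃ j₀ : Option (Fin l), ∀ j,
      ((l : ℤ) ∣ (al l j * g.1) 0 0 ∧ (l : ℤ) ∣ (al l j * g.1) 1 0) ↔ j = j₀ := by
    by_cases y : (l : ℤ) ∣ g 1 0
    · refine ⟨none, fun j => ?_⟩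
      cases j with
      | none => simpa [al, Matrix.mul_apply] using y
      | some j =>
        simp only [al, Matrix.mul_apply, Fin.sum_univ_two, reduceCtorEq, iff_false]
        exact fun k => cop ⟨by simpa using (dvd_add_left (y.mul_left _)).1 k.1, y⟩
    · obtain ⟨j₀, k⟩ := solve hl (-g 1 0) (g 0 0) (by simpa using y)
      refine ⟨some j₀, fun j => ?_⟩
      cases j with
      | none => simpa [al, Matrix.mul_apply] using y
      | some j =>
        have e : (al l (some j) * g.1) 0 0 = g 0 0 + j * g 1 0 ∧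
            (al l (some j) * g.1) 1 0 = l * g 1 0 := by simp [al, Matrix.mul_apply]
        rw [e.1, e.2]
        refine ⟨fun q => ?_, fun q => ⟨by obtain rfl := Option.some.inj q; simpa using k,
          dvd_mul_right _ _⟩⟩
        have : (l : ℤ) ∣ ((j : ℕ) - (j₀ : ℕ) : ℤ) * g 1 0 := by
          have := dvd_sub q.1 k
          rwa [show g 0 0 + (j : ℕ) * g 1 0 - (g 0 0 - (j₀ : ℕ) * -g 1 0) =
            ((j : ℕ) - (j₀ : ℕ) : ℤ) * g 1 0 by ring] at this
        have := Int.eq_zero_of_abs_lt_dvd ((pr.dvd_or_dvd this).resolve_right y)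
          (by have := j.2; have := j₀.2; rw [abs_lt]; omega)
        exact congrArg some (Fin.ext (by omega))
  simp only [k]
  rw [← Finset.add_sum_erase _ _ (Finset.mem_univ j₀), if_pos rfl,
    Finset.sum_congr rfl fun j m => if_neg (Finset.ne_of_mem_erase m), Finset.sum_const,
    Finset.card_erase_of_mem (Finset.mem_univ _)]
  simp [l0]

/-- `T_l - l - 1` kills the values at the cusps -/
theorem cusp (hN : 0 < N) {l : ℕ} (hl : l.Prime) (hlN : ¬ l ∣ N) (h1 : (N : ℤ) ∣ l - 1)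
    (hF : Mk N 2 F) : S2 N (Tp l F + (-(l + 1) : ℂ) • F) := by
  classical
  have M := mk_add (mk_tp hl hlN hF) (mk_smul hF (-(l + 1) : ℂ))
  refine ⟨M.holo, M.slash, fun g => ?_⟩
  obtain ⟨v, hv⟩ := lim hN hF g
  have l0 : (l : ℂ) ≠ 0 := by exact_mod_cast hl.pos.ne'
  have pr := Nat.prime_iff_prime_int.1 hl
  have t : ∀ j, Tendsto (sl (sl F (al l j)) g.1) atImInfty (𝓝 (v *
      if (l : ℤ) ∣ (al l j * g.1) 0 0 ∧ (l : ℤ) ∣ (al l j * g.1) 1 0 then (l : ℂ) else (l : ℂ)⁻¹)) :=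
    fun j => by
    obtain ⟨δ, k, u, hδ, d, z, e⟩ := Es.nb hl h1 j g
    have du : u 0 0 * u 1 1 = l := by
      have := congrArg Matrix.det e
      rw [Matrix.det_mul, Matrix.det_mul, g.2, (δ * g * ModularGroup.T ^ k).2, al_det, mul_one,
        one_mul, Matrix.det_fin_two, z, mul_zero, sub_zero] at this
      exact this.symm
    have du' : u.det = l := by rw [Matrix.det_fin_two, z, mul_zero, sub_zero, du]
    have t1 : Tendsto (sl F (δ * g * ModularGroup.T ^ k).1) atImInfty (𝓝 v) := by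
      have dT : 0 < (ModularGroup.T ^ k).1.det := by simp
      rw [Matrix.SpecialLinearGroup.coe_mul, sl_mul _ _ _ (by simp) dT,
        Matrix.SpecialLinearGroup.coe_mul, sl_mul _ _ _ (by simp) (by simp),
        inv hF ((G0_iff N δ).1 hδ), sl_SL F g]
      refine (lim_up hv dT (by simp [ModularGroup.coe_T_zpow])).trans (le_of_eq (congrArg _ ?_))
      simp [ModularGroup.coe_T_zpow]
    rw [← sl_mul _ _ _ (alp hl j) (by simp), e, sl_mul _ _ _ (by simp) d]
    refine (lim_up t1 d z).trans (le_of_eq (congrArg _ ?_))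
    rw [mul_assoc, du']
    congr 1
    set γ := δ * g * ModularGroup.T ^ k
    have c : (γ.1 * u) 0 0 = γ 0 0 * u 0 0 ∧ (γ.1 * u) 1 0 = γ 1 0 * u 0 0 := by
      simp [Matrix.mul_apply, z]
    have dγ : γ 0 0 * γ 1 1 - γ 0 1 * γ 1 0 = 1 := (Matrix.det_fin_two _).symm.trans γ.2
    rw [c.1, c.2]
    rcases pr.irreducible.isUnit_or_isUnit du.symm with w | w
    · rw [if_neg fun q => pr.not_dvd_one (by
        have a := (w.dvd_mul_right).1 q.1
        have b := (w.dvd_mul_right).1 q.2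
        exact dγ ▸ dvd_sub (a.mul_right _) (b.mul_left _))]
      have : ((u 1 1 : ℤ) : ℂ) ^ 2 = (l : ℂ) ^ 2 := by
        have : u 1 1 ^ 2 = (l : ℤ) ^ 2 := by
          rcases Int.isUnit_iff.1 w with q | q <;> rw [← du, q] <;> ring
        exact_mod_cast this
      rw [this]
      push_cast
      field_simp
    · have a : (l : ℤ) ∣ u 0 0 := (w.dvd_mul_right).1 (du ▸ dvd_rfl)
      rw [if_pos ⟨a.mul_left _, a.mul_left _⟩]
      rcases Int.isUnit_iff.1 w with q | q <;> simp [q]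
  have s := (tendsto_finset_sum Finset.univ fun j _ => t j).add (hv.const_mul (-(l + 1) : ℂ))
  rw [← Finset.mul_sum, wsum hl, show v * (l + 1 : ℂ) + -(l + 1) * v = 0 by ring] at s
  refine s.congr fun z => ?_
  rw [SlashAction.add_slash, ModularForm.SL_smul_slash, ← sl_SL (Tp l F), Tp, sl_sum]
  simp

end Aj

open Aj

theorem adj : ADJ := fun N S G F a c P κ h hS hF hc e => by
  have : NeZero N := ⟨h.pos.ne'⟩
  have key : ∀ (P : FreeAlgebra ℤ (PA S)) F c, Mk N 2 F → QE F c → ∃ F', Mk N 2 F' ∧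
      QE F' (FreeAlgebra.lift ℤ (fun l : PA S => TcL l.1) P c) ∧
      pet2 N F' G = (FreeAlgebra.lift ℤ (fun l : PA S => a l.1) P : ℤ) * pet2 N F G := fun P => by
    induction P using FreeAlgebra.induction with
    | grade0 r => exact fun F c m q => ⟨(r : ℂ) • F, mk_smul m _,
        H65.qe_congr (QE.smul q r) (by simp), by simp [(pet_smul _ _ _).1]⟩
    | grade1 l =>
      refine fun F c m q => ⟨Tp l.1 F, mk_tp l.2.1 (fun k => l.2.2 (k.trans hS)) m,
        by rw [FreeAlgebra.lift_ι_apply]; exact qe_T q l.1 l.2.1.pos, ?_⟩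
      rw [pet_T h.pos l.2.1 (fun k => l.2.2 (k.trans hS)) m h.s2,
        (TE_iff h.qe N a).1 h.te l.1 l.2.1 fun k => l.2.2 (k.trans hS), (pet_smul _ _ _).2]
      simp
    | mul x y p q =>
      intro F c m k
      obtain ⟨F₁, m₁, k₁, e₁⟩ := q F c m k
      obtain ⟨F₂, m₂, k₂, e₂⟩ := p F₁ _ m₁ k₁
      exact ⟨F₂, m₂, by rwa [map_mul], by rw [e₂, e₁, map_mul]; push_cast; ring⟩
    | add x y p q =>
      intro F c m k
      obtain ⟨F₁, m₁, k₁, e₁⟩ := p F c m k
      obtain ⟨F₂, m₂, k₂, e₂⟩ := q F c m k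
      exact ⟨F₁ + F₂, mk_add m₁ m₂, by rw [map_add]; exact QE.add k₁ k₂,
        by rw [pet_add h.pos m₁ m₂ h.s2, e₁, e₂, map_add]; push_cast; ring⟩
  obtain ⟨F', -, q, k⟩ := key P F c hF hc
  rw [e] at q
  rw [← k, QE.ext q (QE.smul h.qe κ), (pet_smul _ _ _).1]

theorem prj : PRJ := fun N S G a h hS hN => by
  obtain ⟨P, P0, hP⟩ := proj N S G a h hS hN
  obtain ⟨l, hl, lS, l1⟩ := Nat.exists_prime_gt_modEq_one S h.pos.ne'
  have nS : ¬ l ∣ S := fun k => (Nat.le_of_dvd (Nat.pos_of_ne_zero hS) k).not_gt lS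
  have nN : ¬ l ∣ N := fun k => nS (k.trans hN)
  refine ⟨P * (FreeAlgebra.ι ℤ ⟨l, hl, nS⟩ - algebraMap ℤ _ (l + 1)), ?_, fun F c m q => ?_⟩
  · rw [map_mul, map_sub, FreeAlgebra.lift_ι_apply, AlgHom.commutes]
    exact mul_ne_zero P0 (sub_ne_zero.2 (triv N G a h l hl nN).1)
  · obtain ⟨κ, e⟩ := hP _ _ (cusp h.pos hl nN (by simpa using l1.symm.dvd) m)
      (QE.add (qe_T q l hl.pos) (QE.smul q _))
    refine ⟨κ, ?_⟩
    rw [map_mul, Module.End.mul_apply, ← e]
    congr 1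
    funext n
    simp [TcL, Tc]
    ring

end Vale.Agent.P014T.Rk
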