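import Vale.Agent.P004Z.St

/-!
# P014 T, block Rk: products of two Eisenstein series of weight one (words and rows)
-/

open UpperHalfPlane MeasureTheory Filter PowerSeries
open scoped MatrixGroups Real Topology ComplexConjugate

noncomputable section

namespace Vale.Agent.P014T.Rk

open P004N Vale.Agent.P004Z

section

variable {R : Type*} [CommRing R] [Algebra ℚ R] {L : ℕ}

/-- the Eisenstein series of weight one at the row `v`; the variable is `q ^ (1 / L)` -/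
def E1 (L : ℕ) (ζ : R) (v : ZMod L × ZMod L) : R⟦X⟧ := PowerSeries.mk fun n =>
  if n = 0 then algebraMap ℚ R (v.1.val / L - 1 / 2) else ∑ p ∈ n.divisorsAntidiagonal,
    ((if (p.1 : ZMod L) = -v.1 then ζ ^ ((-v.2).val * p.2) else 0) -
      if (p.1 : ZMod L) = v.1 then ζ ^ (v.2.val * p.2) else 0)

/-- the sum of the products over the matrices modulo `L` (pairs of rows) -/
def FF (L : ℕ) [NeZero L] (ζ : R) (Φ : (ZMod L × ZMod L) × (ZMod L × ZMod L) → R) : R⟦X⟧ :=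
  ∑ Y, Φ Y • (E1 L ζ Y.1 * E1 L ζ Y.2)

/-- the weight `w (det Y)` on the matrices with `N ∣ u a + v c` -/
def Ph (N : ℕ) (u v : ℤ) (w : ZMod L → R) (Y : (ZMod L × ZMod L) × (ZMod L × ZMod L)) : R :=
  if N ∣ ((u : ZMod L) * Y.1.1 + v * Y.2.1).val then w (Y.1.1 * Y.2.2 - Y.1.2 * Y.2.1) else 0

end

/-- the value at `s = 1` of `∑ w n a n / n ^ s` -/
def Lw (a : ℕ → ℤ) (w : ℕ → ℂ) : ℂ :=
  2 * π * ∫ t in Set.Ioi (0 : ℝ), ∑' n : ℕ, w n * a n * Real.exp (-(2 * π * n * t))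

/-- `s` is the modular symbol `2 π i ∫ G` from `γ 0` to `γ ∞` -/
def Sym (a : ℕ → ℤ) (γ : SL(2, ℤ)) (s : ℂ) : Prop := ∃ x y : ℂ,
  Tendsto (fun z : ℍ => Pr (fun n => (a n : ℂ)) (γ • z)) atImInfty (𝓝 x) ∧
  Tendsto (fun z : ℍ => Pr (fun n => (a n : ℂ)) ((γ * ModularGroup.S) • z)) atImInfty (𝓝 y) ∧
  s = x - y

/-- **the formula of Rankin** -/
def RK : Prop := ∀ (N L : ℕ) [NeZero L] (G : ℍ → ℂ) (a : ℕ → ℤ) (w : ZMod L → ℂ) (γ : SL(2, ℤ))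
  (s : ℂ), RN N G a → N ∣ L → (∀ n : ℤ, w n ≠ 0 → IsCoprime n N) → ¬ (N : ℤ) ∣ γ 1 0 →
  ¬ (N : ℤ) ∣ γ 1 1 → Sym a γ s → ∃ F : ℍ → ℂ, Mk N 2 F ∧
    QE F (fun n => coeff (L * n)
      (FF L (Complex.exp (2 * π * Complex.I / L)) (Ph N (γ 1 0) (γ 1 1) w))) ∧
    (∀ n, ¬ L ∣ n → coeff n
      (FF L (Complex.exp (2 * π * Complex.I / L)) (Ph N (γ 1 0) (γ 1 1) w)) = 0) ∧
    pet2 N F G = -Complex.I * L ^ 2 / (4 * π ^ 2) *
      (Lw a (fun n => w n) * conj s - Lw a (fun n => w (-n)) * s)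

/-- the Hecke operators are self adjoint between forms and cusp forms -/
def ADJ : Prop := ∀ (N S : ℕ) (G F : ℍ → ℂ) (a : ℕ → ℤ) (c : ℕ → ℂ) (P : FreeAlgebra ℤ (PA S))
  (κ : ℂ), RN N G a → N ∣ S → Mk N 2 F → QE F c →
  (FreeAlgebra.lift ℤ (fun l : PA S => TcL l.1) P c = fun n => κ * a n) →
  κ * pet2 N G G = (FreeAlgebra.lift ℤ (fun l : PA S => a l.1) P : ℤ) * pet2 N F G

/-- a projector on all the forms -/
def PRJ : Prop := ∀ (N S : ℕ) (G : ℍ → ℂ) (a : ℕ → ℤ), RN N G a → S ≠ 0 → N ∣ S →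
  ∃ P : FreeAlgebra ℤ (PA S), FreeAlgebra.lift ℤ (fun l : PA S => a l.1) P ≠ 0 ∧
    ∀ F c, Mk N 2 F → QE F c →
      ∃ κ : ℂ, FreeAlgebra.lift ℤ (fun l : PA S => TcL l.1) P c = fun n => κ * a n

end Vale.Agent.P014T.Rk
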