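import Vale.Agent.P014T.An.Mel
import Vale.Agent.P014T.Rk.Defs
import Vale.Agent.P004Z.Lf.Wc0
import Vale.Agent.P004N.H461.Cf

/-! # P014T, block Rk: twisted `L`-values and modular symbols -/

set_option linter.all false

open Complex UpperHalfPlane Filter Topology Set Asymptotics MeasureTheory
open scoped Real MatrixGroups ModularForm

noncomputable section

namespace Vale.Agent.P014T.An

open P004N P004Z P004Z.W2

variable {M L : ℕ} {H : ℍ → ℂ} {c : ℕ → ℂ} {t : ℝ}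

theorem ee_add (x y : ℂ) : ee (x + y) = ee x * ee y := by rw [ee, mul_add, exp_add, ee, ee]

theorem Gd.tail (h : Gd c) (k : 0 < t) : HasSum (fun n : ℕ => c n / n * ee (n * (Complex.I * t)))
    (2 * π * ∫ y in Ioi t, qs c y) := by
  have e := (measurePreserving_add_left volume t).setIntegral_preimage_emb
    (measurableEmbedding_addLeft t) (qs c) (Ioi t)
  rw [preimage_const_add_Ioi, sub_self] at e
  have := (hasSum_mellin (a := fun n => c n * ee (n * (Complex.I * t))) (p := fun n => 2 * π * n)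
    (F := fun y => qs c (t + y)) (s := 1) (fun n => ?_) (by simp) (fun y (m : 0 < y) => ?_)
    ?_).mul_left (2 * π : ℂ)
  · simp only [mellin, sub_self, cpow_zero, one_smul, e] at this
    refine this.congr_fun' fun n => ?_
    simp
    field_simp
  · rcases Nat.eq_zero_or_pos n with rfl | e
    · exact .inl (by simp [h.z])
    · exact .inr (by positivity)
  · refine (h.hs (add_pos k m)).congr_fun' fun n => ?_
    rw [ofReal_add, mul_add, mul_add, ee_add, ee_I n y, neg_mul, mul_assoc]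
  · refine (sn h.s2 k).of_norm_bounded fun n => ?_
    rw [one_re, Real.rpow_one, Real.norm_of_nonneg (by positivity)]
    rcases Nat.eq_zero_or_pos n with rfl | e
    · simp [h.z]
    · have : (1 : ℝ) ≤ n := by exact_mod_cast e
      exact div_le_self (norm_nonneg _) (by nlinarith [Real.pi_gt_three])

/-- **the value at `s = 1` as a limit** -/
theorem Gd.lim (h : Gd c) : Tendsto (fun t : ℝ => ∑' n : ℕ, c n / n * ee (n * (Complex.I * t)))
    (𝓝[>] 0) (𝓝 (M0 c)) :=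
  ((h.int0.continuousWithinAt_Ici_primitive_Ioi.mono_left (nhdsWithin_mono 0
    Ioi_subset_Ici_self)).const_mul _).congr' (eventually_mem_nhdsWithin.mono fun t k =>
      (h.tail k).tsum_eq.symm)

/-- the point `x + i t` -/
def pt (x t : ℝ) : ℍ := ofComplex (x + Complex.I * t)

theorem coe_pt (x : ℝ) (k : 0 < t) : (pt x t : ℂ) = x + Complex.I * t := by
  rw [pt, ofComplex_apply_of_im_pos (by simpa using k)]

theorem im_pt (x : ℝ) (k : 0 < t) : (pt x t).im = t := by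
  rw [← coe_im, coe_pt x k]
  simp

theorem ee_pt (x : ℝ) (k : 0 < t) (n : ℕ) :
    cexp (2 * π * Complex.I * n * pt x t) = ee (n * x) * ee (n * (Complex.I * t)) := by
  rw [← ee_add, coe_pt x k, ← mul_add, ee, mul_assoc _ (n : ℂ)]

theorem nrm_ee (n : ℕ) (x : ℝ) : ‖ee (n * x)‖ = 1 := by
  simp [ee, norm_exp]

theorem bdd_sm {w : ℕ → ℂ} {C : ℝ} (b : ∀ n, ‖w n‖ ≤ C) {s : ℂ} (h : LSeriesSummable c s) :
    LSeriesSummable (fun n => w n * c n) s :=
  (h.norm.mul_left C).of_norm_bounded fun n => by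
    rw [LSeries.norm_term_eq, LSeries.norm_term_eq]
    split_ifs
    · simp
    · rw [norm_mul, mul_div_assoc]
      gcongr
      exact b n

theorem den_pt (g : SL(2, ℤ)) (n : g 1 0 ≠ 0) (k : 0 < t) :
    normSq (g⁻¹ 1 0 * pt (g 0 0 / g 1 0) t + g⁻¹ 1 1 : ℂ) = (g 1 0) ^ 2 * t ^ 2 := by
  have : (g 1 0 : ℂ) ≠ 0 := Int.cast_ne_zero.2 n
  have e : (g⁻¹ 1 0 * pt (g 0 0 / g 1 0) t + g⁻¹ 1 1 : ℂ) = (-(g 1 0 * t) : ℝ) * Complex.I := by
    rw [coe_pt _ k, Matrix.SpecialLinearGroup.SL2_inv_expl]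
    simp
    field_simp
    ring
  rw [e, normSq_mul, normSq_ofReal, normSq_I]
  ring

/-- the additive twist by a cusp -/
theorem gd_g (hM : 0 < M) (h : S2 M H) (q : QE H c) (z : c 0 = 0) (g : SL(2, ℤ)) (n : g 1 0 ≠ 0) :
    Gd fun n => ee (n * (g 0 0 / g 1 0 : ℝ)) * c n := by
  obtain ⟨C, -, hC⟩ := Lf.Wx.bot hM h g⁻¹
  refine ⟨by simp [z], fun s k => bdd_sm (fun n => (nrm_ee n _).le) (sum32 hM h q s k),
    .of_bound (C * (g 1 0) ^ 2) (eventually_mem_nhdsWithin.mono fun t (k : 0 < t) => ?_)⟩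
  have a := hC (pt (g 0 0 / g 1 0) t)
  rw [den_pt g n k, im_pt _ k, ← mul_assoc, mul_le_mul_iff_left₀ (by positivity),
    ← (q _).tsum_eq] at a
  simp only [ee_pt _ k] at a
  simpa only [qs, norm_one, mul_one, mul_left_comm (c _), mul_assoc (ee _)] using a

theorem gd_r (hM : 0 < M) (h : S2 M H) (q : QE H c) (z : c 0 = 0) (r : ℚ) :
    Gd fun n => ee (n * r) * c n := by
  obtain ⟨g, a, b⟩ := (Int.isCoprime_iff_gcd_eq_one.2 r.reduced :
    IsCoprime r.num (r.den : ℤ)).exists_SL2_col 0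
  have := gd_g hM h q z g (by rw [b]; exact_mod_cast r.den_nz)
  rw [a, b] at this
  simpa [Rat.cast_def] using this

/-- **the value at the cusp** -/
theorem cusp (hM : 0 < M) (h : S2 M H) (q : QE H c) (z : c 0 = 0) (g : SL(2, ℤ)) (n : g 1 0 ≠ 0)
    {x : ℂ} (k : Tendsto (fun z : ℍ => Pr c (g • z)) atImInfty (𝓝 x)) :
    M0 (fun n => ee (n * (g 0 0 / g 1 0)) * c n) = x := by
  have p : (0 : ℝ) < (g 1 0 : ℝ) ^ 2 := sq_pos_of_ne_zero (Int.cast_ne_zero.2 n)
  have a : Tendsto (fun t : ℝ => g⁻¹ • pt (g 0 0 / g 1 0) t) (𝓝[>] 0) atImInfty :=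
    tendsto_comap_iff.2 ((tendsto_inv_nhdsGT_zero.const_mul_atTop (inv_pos.2 p)).congr'
      (eventually_mem_nhdsWithin.mono fun t (m : 0 < t) => by
        simp only [Function.comp]
        rw [ModularGroup.im_smul_eq_div_normSq, ModularGroup.denom_apply, den_pt g n m, im_pt _ m]
        field_simp))
  have b := (gd_g hM h q z g n).lim
  push_cast at b
  refine tendsto_nhds_unique b ((k.comp a).congr' (eventually_mem_nhdsWithin.mono
    fun t (m : 0 < t) => ?_))
  simp only [Function.comp, smul_inv_smul, Pr, ee_pt _ m]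
  push_cast
  exact tsum_congr fun n => by ring

theorem cusp_top (h : Gd c) : Tendsto (fun t : ℝ => ∑' n : ℕ, c n / n * ee (n * (Complex.I * t)))
    atTop (𝓝 0) := by
  have := ((intervalIntegral_tendsto_integral_Ioi 0 h.int0 tendsto_id).const_sub
    (∫ y in Ioi 0, qs c y)).const_mul (2 * π : ℂ)
  rw [sub_self, mul_zero] at this
  refine this.congr' ((eventually_gt_atTop 0).mono fun t k => ?_)
  simp only [(h.tail k).tsum_eq, id]
  rw [intervalIntegral.integral_of_le k.le, ← Ioc_union_Ioi_eq_Ioi k.le, setIntegral_union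
    Ioc_disjoint_Ioi_same measurableSet_Ioi (h.int0.mono_set Ioc_subset_Ioi_self)
    (h.int0.mono_set (Ioi_subset_Ioi k.le)), add_sub_cancel_left]

/-- the cusp at infinity -/
theorem cusp_inf (h : Gd c) (g : SL(2, ℤ)) (n : g 1 0 = 0) {x : ℂ}
    (k : Tendsto (fun z : ℍ => Pr c (g • z)) atImInfty (𝓝 x)) : x = 0 := by
  have p : (0 : ℝ) < normSq (g 0 0 : ℂ) := normSq_pos.2 (Int.cast_ne_zero.2 fun e => by
    have := g.det_coe
    rw [Matrix.det_fin_two, e, n] at this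
    simp at this)
  have a : Tendsto (fun t : ℝ => g⁻¹ • pt 0 t) atTop atImInfty :=
    tendsto_comap_iff.2 ((tendsto_id.atTop_div_const p).congr'
      ((eventually_gt_atTop 0).mono fun t m => by
        simp only [Function.comp]
        rw [ModularGroup.im_smul_eq_div_normSq, ModularGroup.denom_apply, im_pt _ m,
          Matrix.SpecialLinearGroup.SL2_inv_expl]
        simp [n]))
  refine tendsto_nhds_unique ((k.comp a).congr' ((eventually_gt_atTop 0).mono fun t m => ?_))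
    (cusp_top h)
  simp [Function.comp, Pr, ee_pt _ m, ee]

theorem four [NeZero L] (w : ZMod L → ℂ) (n : ℕ) :
    w n = ∑ j : ZMod L, (L : ℂ)⁻¹ * ZMod.dft w j * ee (n * (j.val / L : ℚ)) := by
  conv_lhs => rw [← ZMod.dft.symm_apply_apply w, ZMod.invDFT_apply, smul_eq_mul, Finset.mul_sum]
  refine Finset.sum_congr rfl fun j _ => ?_
  have : j * n = ((j.val * n : ℤ) : ZMod L) := by simp
  rw [this, ZMod.stdAddChar_coe, ee, smul_eq_mul, mul_comm (cexp _), ← mul_assoc]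
  congr 2
  push_cast
  ring

/-- **periodic weights** -/
theorem gd_w [NeZero L] (hM : 0 < M) (h : S2 M H) (q : QE H c) (z : c 0 = 0) (w : ZMod L → ℂ) :
    Gd (fun n => w n * c n) ∧ M0 (fun n => w n * c n) =
      ∑ j : ZMod L, (L : ℂ)⁻¹ * ZMod.dft w j * M0 fun n => ee (n * (j.val / L)) * c n := by
  have e : (fun n : ℕ => w n * c n) = ∑ j : ZMod L, ((L : ℂ)⁻¹ * ZMod.dft w j) •
      fun n : ℕ => ee (n * (j.val / L : ℚ)) * c n := funext fun n => by
    simp only [four w n, Finset.sum_mul, Finset.sum_apply, Pi.smul_apply, smul_eq_mul, mul_assoc]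
  obtain ⟨a, b, -⟩ := gd_sum Finset.univ fun (j : ZMod L) _ =>
    (gd_r hM h q z (j.val / L)).smul ((L : ℂ)⁻¹ * ZMod.dft w j)
  rw [e]
  exact ⟨a, by simpa only [M0_smul, Rat.cast_div, Rat.cast_natCast] using b⟩

/-- periodic sequences -/
def Pw (w : ℕ → ℂ) : Prop := ∃ L : ℕ, L ≠ 0 ∧ Function.Periodic w L

variable {w w' : ℕ → ℂ}

theorem pw_mod (hL : L ≠ 0) (w : ZMod L → ℂ) : Pw fun n => w n := ⟨L, hL, fun n => by simp⟩

theorem Pw.op (a : Pw w) (b : Pw w') (f : ℂ → ℂ → ℂ) : Pw fun n => f (w n) (w' n) := by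
  obtain ⟨L, k, a⟩ := a
  obtain ⟨L', k', b⟩ := b
  refine ⟨L * L', mul_ne_zero k k', fun n => ?_⟩
  have e : w' (n + L * L') = w' n := b.nat_mul L n
  have e' : w (n + L * L') = w n := mul_comm L L' ▸ a.nat_mul L' n
  simp only [e, e']

theorem pw_const (x : ℂ) : Pw fun _ => x := ⟨1, one_ne_zero, fun _ => rfl⟩

theorem Pw.cp (a : Pw w) {S : ℕ} (hS : S ≠ 0) : Pw (cp S w) := by
  have := a.op (w' := An.cp S fun _ => 1) ⟨S, hS, fun n => by simp [An.cp]⟩ (· * ·)
  rwa [show (fun n => w n * An.cp S (fun _ => 1) n) = An.cp S w from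
    funext fun n => by simp [An.cp]] at this

theorem pw_ee (r : ℚ) : Pw fun n => ee (n * r) := ⟨r.den, r.den_nz, fun n => by
  have : ee (r.den * r) = 1 := by
    rw [ee, show (r.den * r : ℂ) = r.num by exact_mod_cast r.den_mul_eq_num, mul_comm,
      exp_int_mul_two_pi_mul_I]
  simp only [Nat.cast_add, add_mul, ee_add, this, mul_one]⟩

theorem Pw.gd (a : Pw w) (hM : 0 < M) (h : S2 M H) (q : QE H c) (z : c 0 = 0) :
    Gd fun n => w n * c n := by
  obtain ⟨L, k, a⟩ := a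
  have := NeZero.mk k
  simpa only [ZMod.val_natCast, a.map_mod_nat] using (gd_w hM h q z fun x : ZMod L => w x.val).1

end An

namespace Rk

open An P004N P004Z

variable {N L S p : ℕ} {G : ℍ → ℂ} {a : ℕ → ℤ} {w w' : ℕ → ℂ}

theorem Lw_eq (a : ℕ → ℤ) (w : ℕ → ℂ) : Lw a w = M0 fun n => w n * a n := by
  simp only [Lw, M0, qs, ee_I]

theorem gw (h : RN N G a) (k : Pw w) : Gd fun n => w n * a n :=
  k.gd h.pos h.s2 h.qe (by simp [h.zero])

theorem Lw_int (h : RN N G a) (k : Pw w) : IntegrableOn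
    (fun t : ℝ => ∑' n : ℕ, w n * a n * Real.exp (-(2 * π * n * t))) (Ioi 0) := by
  simp only [← ee_I]
  exact (gw h k).int0

theorem Lw_smul (a : ℕ → ℤ) (x : ℂ) (w : ℕ → ℂ) : Lw a (fun n => x * w n) = x * Lw a w := by
  rw [Lw_eq, Lw_eq, ← M0_smul]
  exact congrArg M0 (funext fun n => mul_assoc _ _ _)

theorem Lw_add (h : RN N G a) (k : Pw w) (k' : Pw w') :
    Lw a (fun n => w n + w' n) = Lw a w + Lw a w' := by
  rw [Lw_eq, Lw_eq, Lw_eq, ← (gw h k).M0_add (gw h k')]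
  exact congrArg M0 (funext fun n => add_mul _ _ _)

theorem Lw_sub (h : RN N G a) (k : Pw w) (k' : Pw w') :
    Lw a (fun n => w n - w' n) = Lw a w - Lw a w' := by
  rw [eq_sub_iff_add_eq, ← Lw_add h (k.op k' (· - ·)) k']
  simp only [sub_add_cancel]

theorem Lw_sum (h : RN N G a) {ι : Type*} (T : Finset ι) {f : ι → ℕ → ℂ} (k : ∀ i ∈ T, Pw (f i)) :
    Lw a (fun n => ∑ i ∈ T, f i n) = ∑ i ∈ T, Lw a (f i) := by
  simp only [Lw_eq]
  rw [← (gd_sum T fun i m => gw h (k i m)).2.1]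
  exact congrArg M0 (funext fun n => by simp [Finset.sum_mul])

/-- the Fourier expansion of the weight -/
theorem Lw_four [NeZero L] (h : RN N G a) (w : ZMod L → ℂ) : Lw a (fun n => w n) =
    ∑ j : ZMod L, (L : ℂ)⁻¹ * ZMod.dft w j * Lw a fun n => ee (n * (j.val / L)) := by
  simpa only [Lw_eq] using (gd_w h.pos h.s2 h.qe (by simp [h.zero]) w).2

theorem rl (h : RN N G a) (hp : p.Prime) (m : ∀ n, w (p * n) = w p * w n) :
    Rl (fun n => w n * a n) p (w p * a p) (if p ∣ N then 0 else p * w p ^ 2) := fun n => by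
  by_cases e : p ∣ N
  · simp only [m, (H461.RN.up hp e h).2 n, e, if_true, zero_mul, ite_self, Int.cast_mul]
    ring
  · have := h.te p hp e n
    simp only [m, e, if_false] at this ⊢
    split_ifs at this ⊢ with d
    · obtain ⟨n, rfl⟩ := d
      rw [Nat.mul_div_cancel_left _ hp.pos] at this ⊢
      rw [m]
      linear_combination w p ^ 2 * w n * this
    · linear_combination w p * w n * this

theorem cp_mul (S : ℕ) (w c : ℕ → ℂ) : (fun n => cp S w n * c n) = cp S fun n => w n * c n :=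
  funext fun n => by simp [cp]

/-- the Euler factor of the twist at `s = 1` -/
def ef (N : ℕ) (a : ℕ → ℤ) (w : ℕ → ℂ) (p : ℕ) : ℂ :=
  1 - w p * a p / p + if p ∣ N then 0 else w p ^ 2 / p

theorem ef_eq (hp : p.Prime) : 1 - w p * a p / p + (if p ∣ N then 0 else p * w p ^ 2) / p ^ 2 =
    ef N a w p := by
  have : (p : ℂ) ≠ 0 := Nat.cast_ne_zero.2 hp.ne_zero
  rw [ef]
  split_ifs
  · simp
  · field_simp

/-- **one Euler factor** -/
theorem Lw_rm (h : RN N G a) (k : Pw w) (hp : p.Prime) (m : ∀ n, w (p * n) = w p * w n)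
    (hS : S ≠ 0) (n : ¬ p ∣ S) : Lw a (cp (p * S) w) = ef N a w p * Lw a (cp S w) := by
  have g := gw h (k.cp hS)
  rw [cp_mul] at g
  rw [Lw_eq, Lw_eq, cp_mul, cp_mul, ← cp_cp, (g.rm hp ((rl h hp m).cp
    (hp.coprime_iff_not_dvd.2 n) hp.pos)).2.1, ef_eq hp]

/-- **all Euler factors at the primes of `S`** -/
theorem Lw_dep (h : RN N G a) (k : Pw w) (hS : S ≠ 0)
    (m : ∀ p ∈ S.primeFactors, ∀ n, w (p * n) = w p * w n) :
    Lw a (cp S w) = (∏ p ∈ S.primeFactors, ef N a w p) * Lw a w := by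
  rw [Lw_eq, Lw_eq, cp_mul, ((gw h k).dep (α := fun p => w p * a p)
    (ρ := fun p => if p ∣ N then 0 else p * w p ^ 2) S hS fun p e =>
      rl h (Nat.prime_of_mem_primeFactors e) (m p e)).2.1, Eu]
  rw [Finset.prod_congr rfl fun p e => ef_eq (Nat.prime_of_mem_primeFactors e)]

/-- the value of the `L`-function -/
theorem Lw_val (h : RN N G a) (k : Pw w) {Λ : ℂ → ℂ} (an : AnalyticOnNhd ℂ Λ {s : ℂ | 1 ≤ s.re})
    (e : ∀ s : ℂ, 2 < s.re → Λ s = ∑' n : ℕ, w n * a n / (n : ℂ) ^ s) : Λ 1 = Lw a w := by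
  rw [Lw_eq, ((gw h k).val an e).2.1]

/-- **the value at the cusp `γ ∞`** -/
theorem Lw_cusp (h : RN N G a) (γ : SL(2, ℤ)) (n : γ 1 0 ≠ 0) {x : ℂ}
    (k : Tendsto (fun z : ℍ => Pr (fun n => (a n : ℂ)) (γ • z)) atImInfty (𝓝 x)) :
    Lw a (fun n => ee (n * (γ 0 0 / γ 1 0))) = x := by
  rw [Lw_eq, cusp h.pos h.s2 h.qe (by simp [h.zero]) γ n k]

/-- **the symbol as a difference of two values** -/
theorem Sym.eq (h : RN N G a) {γ : SL(2, ℤ)} {s : ℂ} (k : Sym a γ s) (n : γ 1 0 ≠ 0)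
    (n' : γ 1 1 ≠ 0) :
    s = Lw a (fun n => ee (n * (γ 0 0 / γ 1 0))) - Lw a fun n => ee (n * (γ 0 1 / γ 1 1)) := by
  obtain ⟨x, y, hx, hy, rfl⟩ := k
  have e : ∀ i, (γ * ModularGroup.S) i 0 = γ i 1 := fun i => by
    simp [Matrix.SpecialLinearGroup.coe_mul, ModularGroup.coe_S, Matrix.mul_apply]
  rw [Lw_cusp h γ n hx, ← Lw_cusp h _ (by rwa [e]) hy, e, e]

/-- the value at the cusp `γ ∞`, with `0` for the cusp at infinity -/
def cl (a : ℕ → ℤ) (u v : ℤ) : ℂ := if v = 0 then 0 else Lw a fun n => ee (n * (u / v))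

theorem cl_eq (h : RN N G a) (γ : SL(2, ℤ)) {x : ℂ}
    (k : Tendsto (fun z : ℍ => Pr (fun n => (a n : ℂ)) (γ • z)) atImInfty (𝓝 x)) :
    x = cl a (γ 0 0) (γ 1 0) := by
  rw [cl]
  split_ifs with n
  · exact cusp_inf (gd h.pos h.s2 h.qe (by simp [h.zero])) γ n k
  · exact (Lw_cusp h γ n k).symm

theorem Sym.cl (h : RN N G a) {γ : SL(2, ℤ)} {s : ℂ} (k : Sym a γ s) :
    s = cl a (γ 0 0) (γ 1 0) - cl a (γ 0 1) (γ 1 1) := by
  obtain ⟨x, y, hx, hy, rfl⟩ := k
  have e : ∀ i, (γ * ModularGroup.S) i 0 = γ i 1 := fun i => by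
    simp [Matrix.SpecialLinearGroup.coe_mul, ModularGroup.coe_S, Matrix.mul_apply]
  rw [cl_eq h γ hx, cl_eq h _ hy, e, e]

end Rk

end Vale.Agent.P014T
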