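import Vale.Agent.P014T.Rk.Lwc

/-! # P014T, block Rk: the formula of Rankin in algebraic form -/

set_option linter.all false

open Complex UpperHalfPlane Filter Topology Set MeasureTheory PowerSeries
open scoped Real MatrixGroups ComplexConjugate

noncomputable section

namespace Vale.Agent.P014T.Rk

open An P004N P004Z

section

variable (R : Type*) [CommRing R]

/-- the Hecke operator on sequences -/
def TR (l : ℕ) : Module.End R (ℕ → R) where
  toFun c n := c (l * n) + if l ∣ n then l * c (n / l) else 0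
  map_add' c e := by
    funext n
    simp only [Pi.add_apply]
    split_ifs <;> ring
  map_smul' x c := by
    funext n
    simp only [Pi.smul_apply, smul_eq_mul, RingHom.id_apply]
    split_ifs <;> ring

/-- a polynomial in the Hecke operators -/
def hk {S : ℕ} (P : FreeAlgebra ℤ (PA S)) : Module.End R (ℕ → R) :=
  FreeAlgebra.lift ℤ (fun l : PA S => TR R l.1) P

variable {R} {R' : Type*} [CommRing R'] {L : ℕ}

theorem hk_map (φ : R →+* R') {S : ℕ} (P : FreeAlgebra ℤ (PA S)) :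
    ∀ (c : ℕ → R) (n : ℕ), φ (hk R P c n) = hk R' P (fun n => φ (c n)) n := by
  induction P with
  | grade0 r => intro c n; simp [hk]
  | grade1 l =>
    intro c n
    simp only [hk, FreeAlgebra.lift_ι_apply, TR, LinearMap.coe_mk, AddHom.coe_mk, map_add]
    split_ifs <;> simp
  | mul P Q a b =>
    intro c n
    simp only [hk, map_mul, Module.End.mul_apply] at *
    rw [a, funext (b c)]
  | add P Q a b =>
    intro c n
    simp only [hk, map_add, LinearMap.add_apply, Pi.add_apply] at *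
    rw [a, b]

/-- the finite Fourier transform -/
def hat [NeZero L] (ζ : R) (w : ZMod L → R) (j : ZMod L) : R := ∑ b, ζ ^ (-(b * j)).val * w b

variable [Algebra ℚ R] [Algebra ℚ R']

/-- evaluation of rational polynomials -/
def ev (ζ : R) : Polynomial ℚ →+* R := (Polynomial.aeval ζ).toRingHom

theorem ev_X (ζ : R) : ev ζ Polynomial.X = ζ := Polynomial.aeval_X ζ

theorem ev_C (ζ : R) (x : ℚ) : ev ζ (algebraMap ℚ _ x) = algebraMap ℚ R x :=
  (Polynomial.aeval ζ).commutes x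

theorem E1_map (φ : R →+* R') (ζ : R) (v : ZMod L × ZMod L) :
    PowerSeries.map φ (E1 L ζ v) = E1 L (φ ζ) v := by
  ext n
  simp only [E1, coeff_map, coeff_mk]
  split_ifs
  · exact (φ.toRatAlgHom).commutes _
  · simp only [map_sum, map_sub, apply_ite φ, map_pow, map_zero]

theorem FF_map [NeZero L] (φ : R →+* R') (ζ : R) (Φ : (ZMod L × ZMod L) × (ZMod L × ZMod L) → R) :
    PowerSeries.map φ (FF L ζ Φ) = FF L (φ ζ) fun Y => φ (Φ Y) := by
  simp only [FF, map_sum, smul_eq_C_mul, map_mul, map_C, E1_map]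

theorem co_map [NeZero L] (φ : R →+* R') (ζ : R) (N : ℕ) (u v : ℤ) (w : ZMod L → R) (n : ℕ) :
    φ (coeff n (FF L ζ (Ph N u v w))) = coeff n (FF L (φ ζ) (Ph N u v fun b => φ (w b))) := by
  rw [← coeff_map, FF_map]
  simp only [Ph, apply_ite φ, map_zero]
  rfl

theorem co_sum [NeZero L] (ζ : R) (N : ℕ) (u v : ℤ) (w : ZMod L → R) (n : ℕ) :
    coeff n (FF L ζ (Ph N u v w)) =
      ∑ b, w b * coeff n (FF L ζ (Ph N u v fun x => if x = b then 1 else 0)) := by
  simp only [FF, map_sum, coeff_smul, smul_eq_mul, Finset.mul_sum]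
  rw [Finset.sum_comm]
  refine Finset.sum_congr rfl fun Y _ => ?_
  simp only [Ph, ← mul_assoc, ← Finset.sum_mul]
  split_ifs <;> simp

end

variable {N L S : ℕ} {G : ℍ → ℂ} {a : ℕ → ℤ} {γ : SL(2, ℤ)} {s : ℂ}

theorem Lw_conj (a : ℕ → ℤ) (w : ℕ → ℂ) : Lw a (fun n => conj (w n)) = conj (Lw a w) := by
  simp only [Lw, map_mul, ← integral_conj, conj_tsum, conj_ofReal, map_intCast, map_ofNat]

theorem ee_conj (n : ℕ) (r : ℚ) : ee (n * (-r : ℚ)) = conj (ee (n * r)) := by
  rw [ee, ee, ← exp_conj]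
  congr 1
  simp [conj_ofNat]

/-- the symbol from the cusp `j / L` -/
def Lj (a : ℕ → ℤ) (L : ℕ) (j : ZMod L) : ℂ := Lw a fun n => ee (n * (j.val / L))

theorem chr [NeZero L] (x : ZMod L) :
    ZMod.stdAddChar x = cexp (2 * π * Complex.I / L) ^ x.val := by
  rw [← exp_nat_mul, ← ZMod.natCast_zmod_val x, ← Int.cast_natCast, ZMod.stdAddChar_coe]
  congr 1
  simp
  ring

theorem hat_eq [NeZero L] (w : ZMod L → ℂ) : hat (cexp (2 * π * Complex.I / L)) w = ZMod.dft w :=
  funext fun j => by simp only [hat, ZMod.dft_apply, chr, smul_eq_mul]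

theorem Lw_hat [NeZero L] (h : RN N G a) (w : ZMod L → ℂ) :
    Lw a (fun n => w n) = ∑ j, (L : ℂ)⁻¹ * ZMod.dft w j * Lj a L j := Lw_four h w

theorem Lw_neg [NeZero L] (h : RN N G a) (w : ZMod L → ℂ) :
    Lw a (fun n => w (-n)) = ∑ j, (L : ℂ)⁻¹ * ZMod.dft w j * conj (Lj a L j) := by
  have e : ∀ n : ℕ, w (-n) = ∑ j : ZMod L, (L : ℂ)⁻¹ * ZMod.dft w j *
      ee (n * (-(j.val / L) : ℚ)) := fun n => by
    conv_lhs => rw [← ZMod.dft.symm_apply_apply w, ZMod.invDFT_apply, smul_eq_mul, Finset.mul_sum]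
    refine Finset.sum_congr rfl fun j _ => ?_
    have : j * -n = ((-(j.val * n) : ℤ) : ZMod L) := by simp
    rw [this, ZMod.stdAddChar_coe, ee, smul_eq_mul, mul_comm (cexp _), ← mul_assoc]
    congr 2
    push_cast
    ring
  rw [funext e, Lw_sum h _ fun j _ => (pw_const _).op (pw_ee _) (· * ·)]
  simp only [Lw_smul, ee_conj, Lw_conj, Lj, Rat.cast_div, Rat.cast_natCast]

/-- the data of the formula: `e j` is the intersection number of the two symbols -/
structure Rd (N L S : ℕ) (G : ℍ → ℂ) (a : ℕ → ℤ) (γ : SL(2, ℤ)) (P : FreeAlgebra ℤ (PA S)) (d : ℕ)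
    (e : ZMod L → ℚ) : Prop where
  rn : RN N G a
  nl : N ∣ L
  ns : N ∣ S
  u : ¬ (N : ℤ) ∣ γ 1 0
  v : ¬ (N : ℤ) ∣ γ 1 1
  pj : ∀ F c, Mk N 2 F → QE F c →
    ∃ κ : ℂ, FreeAlgebra.lift ℤ (fun l : PA S => TcL l.1) P c = fun n => κ * a n
  ex : ∃ (s : ℂ) (C : ℝ), Sym a γ s ∧ C ≠ 0 ∧ (d * C : ℂ) = 4 * π ^ 2 * pet2 N G G ∧
    ∀ j, (Lj a L j * conj s).im = C * e j

variable {P : FreeAlgebra ℤ (PA S)} {d : ℕ} {e : ZMod L → ℚ}

theorem rkc [NeZero L] (rk : RK) (adj : ADJ) (h : Rd N L S G a γ P d e) (w : ZMod L → ℂ)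
    (hw : ∀ n : ℤ, w n ≠ 0 → IsCoprime n N) (n : ℕ) :
    d * hk ℂ P (fun n => coeff (L * n)
      (FF L (cexp (2 * π * Complex.I / L)) (Ph N (γ 1 0) (γ 1 1) w))) n =
      2 * L * (FreeAlgebra.lift ℤ (fun l : PA S => a l.1) P : ℤ) *
        (∑ j, hat (cexp (2 * π * Complex.I / L)) w j * e j) * a n ∧
    (¬ L ∣ n → coeff n (FF L (cexp (2 * π * Complex.I / L)) (Ph N (γ 1 0) (γ 1 1) w)) = 0) := by
  obtain ⟨s, C, hs, C0, hd, he⟩ := h.ex
  obtain ⟨F, m, q, z, f⟩ := rk N L G a w γ s h.rn h.nl hw h.u h.v hs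
  obtain ⟨κ, k⟩ := h.pj F _ m q
  have b := adj N S G F a _ P κ h.rn h.ns m q k
  refine ⟨?_, z n⟩
  rw [show hk ℂ P _ n = κ * a n from congrFun k n, hat_eq, ← mul_assoc]
  congr 1
  have L0 : (L : ℂ) ≠ 0 := Nat.cast_ne_zero.2 (NeZero.ne L)
  have p0 : (π : ℂ) ≠ 0 := ofReal_ne_zero.2 Real.pi_ne_zero
  have g : Lw a (fun n => w n) * conj s - Lw a (fun n => w (-n)) * s =
      (L : ℂ)⁻¹ * (2 * C * Complex.I) * ∑ j, ZMod.dft w j * e j := by
    rw [Lw_hat h.rn, Lw_neg h.rn, Finset.sum_mul, Finset.sum_mul, ← Finset.sum_sub_distrib,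
      Finset.mul_sum]
    refine Finset.sum_congr rfl fun j _ => ?_
    have := sub_conj (Lj a L j * conj s)
    rw [he, map_mul, conj_conj] at this
    push_cast at this
    linear_combination (L : ℂ)⁻¹ * ZMod.dft w j * this
  rw [f, g] at b
  refine mul_left_cancel₀ (ofReal_ne_zero.2 C0) ?_
  field_simp at b
  linear_combination κ * hd + b - (2 * (FreeAlgebra.lift ℤ (fun l : PA S => a l.1) P : ℤ) * L * C *
    ∑ j, ZMod.dft w j * e j) * I_sq

/-- **the formula of Rankin over any ring** -/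
theorem rka [NeZero L] (rk : RK) (adj : ADJ) (h : Rd N L S G a γ P d e) {R : Type*} [CommRing R]
    [Algebra ℚ R] {ζ : R} (hζ : Polynomial.aeval ζ (Polynomial.cyclotomic L ℚ) = 0)
    (w : ZMod L → R) (hw : ∀ n : ℤ, w n ≠ 0 → IsCoprime n N) (n : ℕ) :
    d * hk R P (fun n => coeff (L * n) (FF L ζ (Ph N (γ 1 0) (γ 1 1) w))) n =
      2 * L * (FreeAlgebra.lift ℤ (fun l : PA S => a l.1) P : ℤ) *
        (∑ j, hat ζ w j * algebraMap ℚ R (e j)) * a n ∧
    (¬ L ∣ n → coeff n (FF L ζ (Ph N (γ 1 0) (γ 1 1) w)) = 0) := by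
  have tr : ∀ A B : Polynomial ℚ, ev (cexp (2 * π * Complex.I / L)) A =
      ev (cexp (2 * π * Complex.I / L)) B → ev ζ A = ev ζ B := fun A B k => by
    obtain ⟨D, f⟩ := minpoly.dvd ℚ (cexp (2 * π * Complex.I / L)) (p := A - B)
      (by rw [map_sub]; exact sub_eq_zero.2 k)
    rw [← Polynomial.cyclotomic_eq_minpoly_rat (isPrimitiveRoot_exp L (NeZero.ne L))
      (NeZero.pos L)] at f
    rw [← sub_eq_zero, ← map_sub, f, map_mul, show ev ζ _ = 0 from hζ, zero_mul]
  have one : ∀ b, w b ≠ 0 → ∀ n,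
      d * hk R P (fun n => coeff (L * n) (FF L ζ (Ph N (γ 1 0) (γ 1 1)
        fun x => if x = b then 1 else 0))) n =
      2 * L * (FreeAlgebra.lift ℤ (fun l : PA S => a l.1) P : ℤ) *
        (∑ j, hat ζ (fun x => if x = b then 1 else 0) j * algebraMap ℚ R (e j)) * a n ∧
      (¬ L ∣ n → coeff n (FF L ζ (Ph N (γ 1 0) (γ 1 1) fun x => if x = b then 1 else 0)) = 0) :=
    fun b k n => by
      obtain ⟨p, q⟩ := rkc rk adj h (fun x => if x = b then 1 else 0)
        (fun m f => hw m (by rwa [show (m : ZMod L) = b from by_contra fun g => f (if_neg g)])) n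
      have x := tr (d * hk (Polynomial ℚ) P (fun n => coeff (L * n) (FF L Polynomial.X
        (Ph N (γ 1 0) (γ 1 1) fun x => if x = b then 1 else 0))) n)
        (2 * L * (FreeAlgebra.lift ℤ (fun l : PA S => a l.1) P : ℤ) * (∑ j, hat Polynomial.X
          (fun x => if x = b then 1 else 0) j * algebraMap ℚ (Polynomial ℚ) (e j)) * a n)
      have y := tr (coeff n (FF L Polynomial.X (Ph N (γ 1 0) (γ 1 1)
        fun x => if x = b then 1 else 0))) 0
      simp only [map_mul, hk_map, co_map, map_natCast, map_intCast, map_ofNat, map_sum, hat,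
        map_pow, apply_ite (ev _), map_one, map_zero, ev_X, ev_C] at x y
      exact ⟨x p, fun f => y (q f)⟩
  refine ⟨?_, fun k => ?_⟩
  · rw [show (fun n => coeff (L * n) (FF L ζ (Ph N (γ 1 0) (γ 1 1) w))) = ∑ b, w b •
      fun n => coeff (L * n) (FF L ζ (Ph N (γ 1 0) (γ 1 1) fun x => if x = b then 1 else 0)) from
      funext fun n => by rw [co_sum]; simp, map_sum, Finset.sum_apply, Finset.mul_sum,
      Finset.sum_congr rfl (g := fun b => w b * (2 * L *
        (FreeAlgebra.lift ℤ (fun l : PA S => a l.1) P : ℤ) *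
        (∑ j, ζ ^ (-(b * j)).val * algebraMap ℚ R (e j)) * a n)) fun b _ => ?_]
    · simp only [hat, Finset.sum_mul, Finset.mul_sum]
      rw [Finset.sum_comm]
      exact Finset.sum_congr rfl fun _ _ => Finset.sum_congr rfl fun _ _ => by ring
    · rw [map_smul, Pi.smul_apply, smul_eq_mul, mul_left_comm]
      by_cases k : w b = 0
      · simp [k]
      · rw [(one b k n).1]
        simp [hat]
  · rw [co_sum]
    refine Finset.sum_eq_zero fun b _ => ?_
    by_cases f : w b = 0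
    · simp [f]
    · rw [(one b f n).2 k, mul_zero]

theorem cyc_of {R : Type*} [CommRing R] [IsDomain R] [Algebra ℚ R] {ζ : R} (hL : 0 < L)
    (h : IsPrimitiveRoot ζ L) : Polynomial.aeval ζ (Polynomial.cyclotomic L ℚ) = 0 := by
  rw [Polynomial.aeval_def, Polynomial.eval₂_eq_eval_map, Polynomial.map_cyclotomic]
  exact h.isRoot_cyclotomic hL

end Vale.Agent.P014T.Rk
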