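import Vale.Agent.P014T.Rk.Ray
import Vale.Agent.P014T.Rk.Lwc
import Vale.Agent.P014T.Es.Md

/-!
# P014 T, block Rk: the formula of Rankin
-/

set_option linter.all false

open MeasureTheory Set Complex Filter CongruenceSubgroup
open UpperHalfPlane hiding I
open scoped Real Classical Topology MatrixGroups Manifold ModularForm ComplexConjugate

noncomputable section

namespace Vale.Agent.P014T.Rk

open Vale.Agent.P004C.Wa Vale.Agent.P004C.Wa.Sk Vale.Agent.P004Z.W2 P004N Lf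
open Es (mi mi_smul)

variable {N L : ℕ} [NeZero L] {G : ℍ → ℂ} {a : ℕ → ℤ} {γ : SL(2, ℤ)} {s : ℂ}

theorem ph_rd (h : N ∣ L) (u v : ℤ) (w : ZMod L → ℂ) (X : (ℤ × ℤ) × (ℤ × ℤ)) :
    Ph N u v w (rd L X) = if (N : ℤ) ∣ u * X.1.1 + v * X.2.1 then
      w (X.1.1 * X.2.2 - X.1.2 * X.2.1 : ℤ) else 0 := by
  simp only [Ph, rd, ← Int.cast_mul, ← Int.cast_add, ← Int.cast_sub]
  refine if_congr ?_ rfl rfl
  rw [← Int.natCast_dvd_natCast, ZMod.val_intCast, Int.emod_def,
    dvd_sub_left ((Int.natCast_dvd_natCast.2 h).mul_right _)]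

theorem rd_surj : Function.Surjective (rd L) := fun Y =>
  ⟨((Y.1.1.val, Y.1.2.val), (Y.2.1.val, Y.2.2.val)), by simp [rd]⟩

theorem Sym.mi (h : Sym a γ s) : Sym a (mi γ) (conj s) := by
  obtain ⟨x, y, hx, hy, rfl⟩ := h
  have j := tendsto_smul_atImInfty (g := J) (by simp [J])
  have e : ∀ z, Pr (fun n => (a n : ℂ)) (J • z) = conj (Pr (fun n => (a n : ℂ)) z) := fun z => by
    rw [Pr, Pr, conj_tsum]
    refine tsum_congr fun n => ?_
    rw [map_mul, ← exp_conj, coe_J_smul]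
    simp [map_ofNat]
  have jj : ∀ z : ℍ, J • J • z = z := fun z => UpperHalfPlane.ext (by simp [coe_J_smul])
  have sj : ∀ z : ℍ, ModularGroup.S • J • z = J • ModularGroup.S • z := fun z =>
    UpperHalfPlane.ext (by rw [modular_S_smul, modular_S_smul]; simp [coe_J_smul])
  refine ⟨_, _, ((continuous_conj.tendsto _).comp (hx.comp j)).congr fun z => ?_,
    ((continuous_conj.tendsto _).comp (hy.comp j)).congr fun z => ?_, map_sub _ _ _⟩
  · simp only [Function.comp, ← e, ← mi_smul, jj]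
  · simp only [Function.comp, ← e, mul_smul, sj]
    rw [← mi_smul, jj]

theorem half (h : RN N G a) (hs : Sym a γ s) (w : ZMod L → ℂ) {t : ℝ} (ht : 0 < t) :
    IntegrableOn (fun ρ : ℝ => (2 * t / ρ) • ∑' n : ℕ, 2 * (w n * n * a n *
      JJ (G ∣[(2 : ℤ)] γ) (n * (t / ρ), n * (t * ρ)))) (Ioi 0) ∧
    ∫ ρ in Ioi (0 : ℝ), (2 * t / ρ) • ∑' n : ℕ, 2 * (w n * n * a n *
      JJ (G ∣[(2 : ℤ)] γ) (n * (t / ρ), n * (t * ρ))) =
      4 * conj (s / (2 * π * I)) * ∑' n : ℕ, w n * a n * Real.exp (-(2 * π * n * t)) := by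
  obtain ⟨x, y, hx, hy, rfl⟩ := hs
  obtain ⟨C, -, hC⟩ := g_bd h.pos h.s2
  simp only [mul_right_comm (w _) _ (a _ : ℂ)]
  refine inner (T3.mdiff_slash h.s2 γ).continuous (hC γ)
    (fun z => by rw [← SlashAction.slash_mul]; exact hC _ z)
    ((P004Z.EF.prim_Pr h.qe (by simp [h.zero])).compSL γ) hx (by simpa only [mul_smul] using hy)
    (fun l hl => ?_) (by simp [h.zero]) ht
  have := summable_norm_iff.2 (h.qe ⟨(l / (2 * π) : ℝ) * I, by
    rw [mul_I_im, ofReal_re]; positivity⟩).summable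
  refine .of_nonneg_of_le (fun _ => by positivity) (fun n => ?_) (this.mul_left ‖w‖)
  rw [norm_mul, norm_mul, mul_assoc, Complex.norm_exp]
  refine mul_le_mul (norm_le_pi_norm w _) (le_of_eq ?_) (by positivity) (norm_nonneg _)
  have : (π : ℂ) ≠ 0 := ofReal_ne_zero.2 Real.pi_ne_zero
  rw [← ofReal_re (-(l * n))]
  congr 3
  push_cast
  field_simp
  rw [I_sq, mul_neg_one]

/-- **the formula of Rankin** -/
theorem rk : RK := by
  intro N L _ G a w γ s h hL hw hu hv hs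
  have hL' := Int.natCast_dvd_natCast.2 hL
  obtain ⟨f1, f2, f3⟩ := Fz_form (N := N) (Φ := Ph N (γ 1 0) (γ 1 1) w) (fun Y k => by
    obtain ⟨⟨⟨a, b⟩, c, d⟩, rfl⟩ := rd_surj Y
    simp only [ph_rd hL, ne_eq, ite_eq_right_iff, Classical.not_imp] at k
    have q := hw _ k.2
    simp only [rd, ne_eq, ZMod.intCast_zmod_eq_zero_iff_dvd]
    constructor <;> intro e <;> obtain ⟨e, rfl⟩ := hL'.trans e
    · rw [mul_assoc, sub_eq_neg_add, IsCoprime.add_mul_left_left_iff, IsCoprime.neg_left_iff] at q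
      exact hv (q.of_mul_left_right.symm.dvd_of_dvd_mul_right
        ((dvd_add_right ((dvd_mul_right _ _).mul_left _)).1 k.1))
    · rw [mul_left_comm, IsCoprime.sub_mul_left_left_iff] at q
      exact hu (q.of_mul_left_left.symm.dvd_of_dvd_mul_right
        ((dvd_add_left ((dvd_mul_right _ _).mul_left _)).1 k.1))) fun g hg Y => by
    obtain ⟨X, rfl⟩ := rd_surj Y
    have d := det1 g
    rw [show (ra (rd L X).1 g, ra (rd L X).2 g) = rd L (ra X.1 g, ra X.2 g) by simp [rd, ra],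
      ph_rd hL, ph_rd hL]
    refine if_congr ?_ (congrArg (fun x : ℤ => w x) ?_) rfl <;> simp only [ra, Int.cast_id]
    · rw [show ∀ u v a b c d x y : ℤ, u * (a * x + b * y) + v * (c * x + d * y) =
        (u * a + v * c) * x + (u * b + v * d) * y from fun _ _ _ _ _ _ _ _ => by ring,
        dvd_add_left ((mem0.1 hg).mul_left _)]
      obtain ⟨k, e⟩ := mem0.1 hg
      exact ⟨IsCoprime.dvd_of_dvd_mul_right ⟨-(g 0 1 * k), g 1 1, by
        linear_combination d + g 0 1 * e⟩, fun k => k.mul_right _⟩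
    · linear_combination (X.1.1 * X.2.2 - X.1.2 * X.2.1) * d
  refine ⟨_, f1, f2, f3, ?_⟩
  obtain ⟨i, e⟩ := fub h.pos h.s2 f1.holo.continuous
  have ms := (measurableSet_Ioi (a := (0 : ℝ))).prod (measurableSet_Ioi (a := (0 : ℝ)))
  have sp : ∀ X : (ℤ × ℤ) × (ℤ × ℤ), Ph N (γ 1 0) (γ 1 1) w (rd L X) = pw N (fun n => w n) (ym γ X) +
      pw N (fun n => w (-n)) (ym (mi γ) (X.1, -X.2)) := fun X => by
    have d := det1 γ
    have e1 : (ym γ X).1 * (ym γ X).2.2.2 - (ym γ X).2.1 * (ym γ X).2.2.1 =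
        X.1.1 * X.2.2 - X.1.2 * X.2.1 := by
      simp only [ym]
      linear_combination (X.1.1 * X.2.2 - X.1.2 * X.2.1) * d
    have e2 : (ym (mi γ) (X.1, -X.2)).1 * (ym (mi γ) (X.1, -X.2)).2.2.2 -
        (ym (mi γ) (X.1, -X.2)).2.1 * (ym (mi γ) (X.1, -X.2)).2.2.1 =
        -(X.1.1 * X.2.2 - X.1.2 * X.2.1) := by
      simp [ym, mi]
      linear_combination -(X.1.1 * X.2.2 - X.1.2 * X.2.1) * d
    have e3 : (ym (mi γ) (X.1, -X.2)).2.2.1 = γ 1 0 * X.1.1 + γ 1 1 * X.2.1 := by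
      simp [ym, mi, add_comm]
    have e4 : (ym γ X).2.2.1 = -(γ 1 0 * X.1.1 + γ 1 1 * X.2.1) := rfl
    rw [ph_rd hL, pw, pw, e1, e2, e3, e4]
    generalize X.1.1 * X.2.2 - X.1.2 * X.2.1 = n
    simp only [dvd_neg, ite_and]
    split_ifs with k1 k2 k3 k3
    · omega
    · rw [add_zero, ← Int.cast_natCast, Int.toNat_of_nonneg k2.le]
    · rw [zero_add, ← Int.cast_natCast, Int.toNat_of_nonneg k3.le, Int.cast_neg, neg_neg]
    · obtain rfl : n = 0 := by omega
      rw [add_zero]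
      by_contra k
      exact hu (isCoprime_zero_left.1 (hw _ k)).dvd
    · simp
  have H : EqOn (fun p => ∫ z, BB G (Ph N (γ 1 0) (γ 1 1) w ∘ rd L) p z ∂fm (Gamma0 N))
      (fun p => (∑' n : ℕ, 2 * (w n * n * a n * JJ (G ∣[(2 : ℤ)] γ) (n * p.1, n * p.2))) -
        ∑' n : ℕ, 2 * (w (-n) * n * a n * JJ (G ∣[(2 : ℤ)] mi γ) (n * p.1, n * p.2)))
      (Ioi 0 ×ˢ Ioi 0) := fun p hp => by
    have u1 := unf_pos γ h (w := fun n => w n) (fun n => norm_le_pi_norm w _)
      (fun n k => Nat.isCoprime_iff_coprime.1 (hw n (by simpa using k))) hp.1 hp.2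
    have u2 := unf_pos (mi γ) h (w := fun n => w (-n)) (fun n => norm_le_pi_norm w _)
      (fun n k => Nat.isCoprime_iff_coprime.1 ((IsCoprime.neg_left_iff _ _).1
        (hw (-n) (by simpa using k)))) hp.1 hp.2
    simp only
    rw [u1.2.tsum_eq, u2.2.tsum_eq, ← integral_sub u1.1 u2.1]
    refine integral_congr_ae (.of_forall fun z => ?_)
    have sm : ∀ φ : (ℤ × ℤ) × (ℤ × ℤ) → ℂ, (∀ X, ‖φ X‖ ≤ ‖w‖) → Summable fun X : (ℤ × ℤ) × (ℤ × ℤ) =>
        φ X * (conj (G z) * z.im ^ 2 * (kk p.1 X.1 z * kk p.2 X.2 z)) := fun φ k =>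
      .of_norm_bounded (((summ2 hp.1 hp.2 z).mul_left ‖conj (G z) * z.im ^ 2‖).mul_left ‖w‖)
        fun X => by
          rw [norm_mul, norm_mul (_ * _)]
          exact mul_le_mul_of_nonneg_right (k X) (by positivity)
    have b : ∀ (v : ℕ → ZMod L) Y, ‖pw N (fun n => w (v n)) Y‖ ≤ ‖w‖ := fun v Y => by
      unfold pw
      split_ifs
      · exact norm_le_pi_norm w _
      · simp
    simp only [BB, Function.comp, sp, add_mul]
    rw [(sm _ fun X => b _ _).tsum_add (sm _ fun X => b _ _), sub_eq_add_neg, ← tsum_neg]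
    congr 1
    rw [← ((Equiv.refl _).prodCongr (Equiv.neg (ℤ × ℤ))).tsum_eq]
    refine tsum_congr fun X => ?_
    have : kk p.2 (-X.2) z = -kk p.2 X.2 z := by
      simp only [kk, Prod.fst_neg, Prod.snd_neg, Int.cast_neg, neg_mul, ← neg_add, normSq_neg,
        map_neg, neg_div]
    simp only [Equiv.prodCongr_apply, Prod.map_fst, Prod.map_snd, Equiv.coe_refl, id, Equiv.neg_apply,
      neg_neg, this, mul_neg]
  have a1 := fun t (ht : t ∈ Ioi (0 : ℝ)) => half h hs w ht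
  have a2 := fun t (ht : t ∈ Ioi (0 : ℝ)) => half h hs.mi (fun x => w (-x)) ht
  rw [e, setIntegral_congr_fun ms H, cov (i.congr_fun H ms), setIntegral_congr_fun measurableSet_Ioi
    fun t ht => by simp only [smul_sub]; rw [integral_sub (a1 t ht).1 (a2 t ht).1, (a1 t ht).2,
      (a2 t ht).2], integral_sub ((Lw_int h (An.pw_mod (NeZero.ne L) w)).const_mul _)
      ((Lw_int h (An.pw_mod (NeZero.ne L) fun x => w (-x))).const_mul _), integral_const_mul,
    integral_const_mul, Lw, Lw]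
  have : (π : ℂ) ≠ 0 := ofReal_ne_zero.2 Real.pi_ne_zero
  simp only [map_div₀, map_mul, conj_ofReal, conj_I, map_ofNat, conj_conj]
  field_simp
  rw [I_sq]
  ring

end Vale.Agent.P014T.Rk
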