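import Vale.Agent.P014A.Bes

/-!
# P014 T, block Rk: the constant term of the Eisenstein series of weight one
-/

set_option linter.all false

open MeasureTheory Set Complex Filter
open scoped Real Classical Topology

namespace Vale.Agent.P014T.Rk

open Vale.Agent.P014A

theorem geo {L r : ℕ} (r0 : 0 < r) (rL : r < L) {x : ℝ} (x0 : 0 ≤ x) (x1 : x < 1) :
    HasSum (fun c : ℤ => if (L : ℤ) ∣ c - r then sg c * x ^ c.natAbs else 0)
      (((∑ i ∈ Finset.range (L - r), x ^ i) - ∑ i ∈ Finset.range r, x ^ i) /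
        ∑ i ∈ Finset.range L, x ^ i) := by
  have L0 : (0 : ℤ) < L := by omega
  have inj : Function.Injective fun j : ℤ => r + L * j := fun a b h =>
    mul_left_cancel₀ L0.ne' (add_left_cancel h)
  have g := hasSum_geometric_of_lt_one (pow_nonneg x0 L) (pow_lt_one₀ x0 x1 (by omega))
  rw [← inj.hasSum_iff fun c k => if_neg fun ⟨j, e⟩ => k ⟨j, by simp only; omega⟩]
  have e : ∀ n, (1 - x) * ∑ i ∈ Finset.range n, x ^ i = 1 - x ^ n := mul_neg_geom_sum x
  have n1 : 1 - x ≠ 0 := by linarith
  rw [← mul_div_mul_left _ _ n1, mul_sub, e, e, e, show (1 - x ^ (L - r) - (1 - x ^ r)) / (1 - x ^ L) =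
    x ^ r * (1 - x ^ L)⁻¹ + -x ^ (L - r) * (1 - x ^ L)⁻¹ by ring]
  refine HasSum.of_nat_of_neg_add_one ((g.mul_left _).congr_fun fun n => ?_)
    ((g.mul_left _).congr_fun fun n => ?_)
  · have p : (0 : ℤ) < r + L * n := by positivity
    rw [Function.comp, if_pos (by simp), sg, if_pos (by exact_mod_cast p), one_mul, ← pow_mul,
      ← pow_add]
    congr 1
  · have p : (r : ℤ) + L * -(n + 1) < 0 := by nlinarith
    rw [Function.comp, if_pos (by simp), sg, if_neg (by exact_mod_cast p.not_gt), ← pow_mul,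
      neg_mul, neg_mul, one_mul, ← pow_add]
    congr 2
    zify [rL.le]
    rw [abs_of_neg p]
    ring

theorem cst {L r : ℕ} (r0 : 0 < r) (rL : r < L) :
    ∫ s in Ioi (0 : ℝ), thO (fun c => if (L : ℤ) ∣ c - r then 1 else 0) s / (√s : ℝ) =
      1 - 2 * r / L := by
  set ψ : ℤ → ℂ := fun c => if (L : ℤ) ∣ c - r then 1 else 0 with hψ
  have n1 : ∀ c, ‖ψ c‖ ≤ 1 := fun c => by simp only [hψ]; split_ifs <;> simp
  have i0 := (thO_int (N := L) (by omega) n1 fun d j => by
    simp only [hψ]
    rw [add_sub_right_comm, if_congr (dvd_add_left (dvd_mul_right _ _)) rfl rfl]).2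
  set Φ : ℝ → ℂ := fun b => ∫ s in Ioi (0 : ℝ),
    thO ψ s / (√s : ℝ) * Real.exp (-(π * (b ^ 2 / s))) with hΦ
  set R : ℝ → ℝ := fun x => ((∑ i ∈ Finset.range (L - r), x ^ i) - ∑ i ∈ Finset.range r, x ^ i) /
    ∑ i ∈ Finset.range L, x ^ i with hR
  have c1 : ContinuousAt Φ 0 := by
    refine continuousAt_of_dominated (.of_forall fun b => i0.1.mul (Measurable.aestronglyMeasurable
      (by fun_prop))) (.of_forall fun b => ?_) i0.norm (.of_forall fun s => by fun_prop)
    filter_upwards [ae_restrict_mem measurableSet_Ioi] with s (hs : 0 < s)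
    rw [norm_mul, norm_real, Real.norm_of_nonneg (Real.exp_pos _).le]
    exact mul_le_of_le_one_right (norm_nonneg _) (Real.exp_le_one_iff.2 (neg_nonpos.2 (by positivity)))
  have L0 : (0 : ℝ) < L := by exact_mod_cast r0.trans rL
  have c2 : ContinuousAt (fun b : ℝ => (R (Real.exp (-(2 * π * b))) : ℂ)) 0 := by
    refine continuous_ofReal.continuousAt.comp (ContinuousAt.div (by fun_prop) (by fun_prop) ?_)
    simpa using L0.ne'
  have e : ∀ b, 0 < b → Φ b = R (Real.exp (-(2 * π * b))) := fun b hb => by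
    have x1 : Real.exp (-(2 * π * b)) < 1 := Real.exp_lt_one_iff.2 (neg_lt_zero.2 (by positivity))
    set F : ℤ → ℝ → ℝ := fun c s => if (L : ℤ) ∣ c - r then (bk c b s + bk c (-b) s) / 2 else 0
      with hF
    have k : ∀ c : ℤ, IntegrableOn (F c) (Ioi 0) ∧ ∫ s in Ioi (0 : ℝ), F c s =
        (if (L : ℤ) ∣ c - r then sg c * Real.exp (-(2 * π * b)) ^ c.natAbs else 0) ∧
        ∫ s in Ioi (0 : ℝ), ‖F c s‖ ≤ 2 * Real.exp (-(2 * π * b)) ^ c.natAbs := fun c => by
      simp only [hF]
      split_ifs with h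
      swap
      · simp only [integral_zero, norm_zero, true_and]
        exact ⟨integrableOn_zero, by positivity⟩
      have c0 : (c : ℝ) ≠ 0 := by
        rintro e
        rw [Int.cast_eq_zero.1 e, zero_sub, dvd_neg, Int.natCast_dvd_natCast] at h
        exact (Nat.le_of_dvd r0 h).not_gt rL
      obtain ⟨a1, a2⟩ := bk_int c0 hb.ne'
      obtain ⟨b1, b2⟩ := bk_int c0 (neg_ne_zero.2 hb.ne')
      have q : Real.exp (-(2 * π * b)) ^ c.natAbs = Real.exp (-(2 * π * |(c : ℝ)| * b)) := by
        rw [← Real.exp_nat_mul, Nat.cast_natAbs, Int.cast_abs]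
        congr 1
        ring
      refine ⟨(a1.add b1).div_const _, ?_, ?_⟩
      · rw [integral_div, integral_add a1 b1, a2, b2, q]
        simp only [sg, if_pos hb, Left.neg_pos_iff, hb.not_gt, if_false]
        split_ifs with p
        · rw [abs_of_pos p]; ring
        · rw [abs_of_nonpos (not_lt.1 p)]; ring_nf
      · have a3 := bk_norm c0 hb.ne'
        have b3 := bk_norm c0 (neg_ne_zero.2 hb.ne')
        rw [abs_neg] at b3
        rw [abs_of_pos hb] at a3 b3
        refine (integral_mono ((a1.add b1).div_const _).norm ((a1.abs.add b1.abs).div_const 2)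
          fun s => ?_).trans ?_
        · simp only [Real.norm_eq_abs, abs_div, abs_two, Pi.add_apply]
          exact div_le_div_of_nonneg_right (abs_add_le _ _) two_pos.le
        · simp only [Pi.add_apply]
          rw [integral_div, integral_add a1.abs b1.abs, q]
          linarith
    have g := summable_geometric_of_lt_one (Real.exp_pos _).le x1
    have h := hasSum_integral_of_summable_integral_norm (fun c => (k c).1)
      (.of_nonneg_of_le (fun c => integral_nonneg fun _ => norm_nonneg _) (fun c => (k c).2.2)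
        (Summable.mul_left 2 (.of_nat_of_neg (by simpa only [Int.natAbs_natCast])
          (by simpa only [Int.natAbs_neg, Int.natAbs_natCast]))))
    simp only [fun c => (k c).2.1] at h
    rw [hR]
    simp only
    rw [← h.unique (geo r0 rL (Real.exp_pos _).le x1), ← integral_complex_ofReal]
    refine setIntegral_congr_fun measurableSet_Ioi fun s (hs : 0 < s) => ?_
    simp only [thO, ofReal_tsum, ← tsum_div_const, ← tsum_mul_right, hF, hψ]
    refine tsum_congr fun c => ?_
    split_ifs
    · rw [one_mul, ← ofReal_div, ← ofReal_mul, bk, bk, neg_sq, mul_add π, neg_add, Real.exp_add]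
      congr 1
      ring_nf
    · simp
  have := tendsto_nhds_unique_of_eventuallyEq (c1.tendsto.mono_left nhdsWithin_le_nhds)
    (c2.tendsto.mono_left nhdsWithin_le_nhds) (eventually_mem_nhdsWithin (s := Ioi 0) |>.mono e)
  simp only [hΦ, hR] at this
  simp only [ne_eq, OfNat.ofNat_ne_zero, not_false_eq_true, zero_pow, zero_div, mul_zero, neg_zero,
    Real.exp_zero, ofReal_one, mul_one, one_pow, Finset.sum_const, Finset.card_range, nsmul_eq_mul,
    Nat.cast_sub rL.le] at this
  rw [this]
  have : (L : ℂ) ≠ 0 := by exact_mod_cast L0.ne'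
  push_cast
  field_simp
  ring

end Vale.Agent.P014T.Rk
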