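import Vale.Agent.P014T.Rk.Defs
import Vale.Agent.P014T.Rk.Cst
import Vale.Agent.P004C.Wa.Sw
import Vale.Agent.P004N.H461.Qe

/-!
# P014 T, block Rk: the Eisenstein series of weight one
-/

set_option linter.all false

open MeasureTheory Set Complex Filter PowerSeries
open UpperHalfPlane hiding I
open scoped Real Classical Topology MatrixGroups Manifold

noncomputable section

namespace Vale.Agent.P014T.Rk

open Vale.Agent.P014A Vale.Agent.P004C.Wa Vale.Agent.P004C.Wa.Sk

variable {L : ℕ} [NeZero L]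

/-- the indicator of a class of rows -/
def ind (v : ZMod L × ZMod L) (w : ℤ × ℤ) : ℂ :=
  if (w.1 : ZMod L) = v.1 ∧ (w.2 : ZMod L) = v.2 then 1 else 0

theorem ind_per (v : ZMod L × ZMod L) : PerB L (ind v) :=
  ⟨fun w => by unfold ind; split_ifs <;> simp, fun w u => by simp [ind]⟩

/-- the action on the rows -/
def ra {R : Type*} [CommRing R] (v : R × R) (g : SL(2, ℤ)) : R × R :=
  (v.1 * g 0 0 + v.2 * g 1 0, v.1 * g 0 1 + v.2 * g 1 1)

theorem ra_inv {R : Type*} [CommRing R] (v : R × R) (g : SL(2, ℤ)) : ra (ra v g) g⁻¹ = v := by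
  have d : (g 0 0 : R) * g 1 1 - g 0 1 * g 1 0 = 1 := by
    have := congrArg (Int.cast : ℤ → R) g.det_coe
    rw [Matrix.det_fin_two] at this
    simpa using this
  refine Prod.ext ?_ ?_ <;> simp [ra, Matrix.adjugate_fin_two]
  · linear_combination v.1 * d
  · linear_combination v.2 * d

/-- as a permutation -/
def raE (R : Type*) [CommRing R] (g : SL(2, ℤ)) : R × R ≃ R × R :=
  ⟨fun v => ra v g, fun v => ra v g⁻¹, fun v => ra_inv v g, fun v => by simpa using ra_inv v g⁻¹⟩

theorem psi_smul (v : ZMod L × ZMod L) (t : ℝ) (g : SL(2, ℤ)) (z : ℍ) :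
    PsiK (ind v) t (g • z : ℍ) = jj g z * PsiK (ind (ra v g)) t z := by
  unfold PsiK
  rw [← (raE ℤ g).tsum_eq fun w => ind (ra v g) w * kk t w z, ← tsum_mul_left]
  refine tsum_congr fun w => ?_
  have e : ind (ra v g) (ra w g) = ind v w := by
    have : ra ((w.1 : ZMod L), (w.2 : ZMod L)) g = (((ra w g).1 : ZMod L), ((ra w g).2 : ZMod L)) := by
      simp [ra]
    simp only [ind, ← Prod.mk.injEq, Prod.mk.eta, ← this]
    exact if_congr (raE _ g).injective.eq_iff rfl rfl
  rw [kk_smul, mul_left_comm, ← e]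
  rfl

theorem psi_bd (L : ℕ) [NeZero L] : ∃ C : ℝ, ∀ (v : ZMod L × ZMod L) (z : ℍ), 1 / 2 ≤ z.im →
    ∫ t in Ioi (0 : ℝ), ‖PsiK (ind v) t z‖ ≤ C := by
  have L0 : (0 : ℝ) < L := by exact_mod_cast NeZero.pos L
  obtain ⟨C, hC⟩ := Finite.bddAbove_range fun v : ZMod L × ZMod L =>
    (∫ s in Ioi (0 : ℝ), ‖thO (fun d => ind v (0, d)) s‖) + (∫ s in Ioi (0 : ℝ), ‖hh L (ind v) s‖) +
      ∑' i, bb (π * (1 / 2) / L) i
  exact ⟨C, fun v z h => ((psi_int (ind_per v) z.im_pos).2.1 _ (by positivity)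
    (by rw [coe_im]; gcongr)).trans (hC ⟨v, rfl⟩)⟩

/-- the series -/
def EE (v : ZMod L × ZMod L) (z : ℍ) : ℂ := L / (2 * I) * ∫ t in Ioi (0 : ℝ), PsiK (ind v) t z

theorem EE_smul (v : ZMod L × ZMod L) (g : SL(2, ℤ)) (z : ℍ) :
    EE v (g • z) = jj g z * EE (ra v g) z := by
  simp only [EE, psi_smul, integral_const_mul]
  ring

theorem hat_ind (v : ZMod L × ZMod L) (c k : ℤ) : hat L (ind v) c k =
    if (c : ZMod L) = v.1 then cexp (2 * π * I * (v.2.val * k) / L) / L else 0 := by
  rw [hat, Finset.sum_eq_single v.2 (fun r _ h => by simp [ind, h]) (by simp)]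
  by_cases h : (c : ZMod L) = v.1 <;> simp [ind, h]

theorem qexp {v : ZMod L × ZMod L} (hv : v.1 ≠ 0) (z : ℍ) :
    HasSum (fun n : ℕ => coeff n (E1 L (cexp (2 * π * I / L)) v) * cexp (2 * π * I * n * (z / L)))
      (EE v z) := by
  have L0 : (L : ℂ) ≠ 0 := by exact_mod_cast NeZero.ne L
  have h1 := (psi_int (ind_per v) z.im_pos).2.2
  have e1 : thO (fun d => ind v (0, d)) = fun _ => 0 := funext fun s => by
    simp [thO, ind, hv.symm]
  have e2 : hh L (ind v) = fun s => thO (fun c => if (L : ℤ) ∣ c - v.1.val then 1 else 0) s /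
      (√s : ℝ) / L := funext fun s => by
    simp only [hh, thO, hat_ind, div_right_comm _ _ (L : ℂ), ← tsum_div_const]
    refine tsum_congr fun c => ?_
    simp only [← ZMod.intCast_zmod_eq_zero_iff_dvd]
    by_cases h : (c : ZMod L) = v.1 <;> simp [h, sub_eq_zero, div_eq_mul_inv, mul_comm]
  rw [e1, e2, integral_zero, zero_add, integral_div, cst (ZMod.val_pos.2 hv) v.1.val_lt] at h1
  have h2 := regroup' h1 (fun p => (p.1 * p.2).toNat) (fun m => Int.divisorsAntidiag m)
    (fun m x hx => by rw [(Int.mem_divisorsAntidiag.mp hx).1, Int.toNat_natCast]) (by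
      rintro ⟨a, k⟩ h
      simp only [WW] at h
      split_ifs at h with q
      swap
      · exact absurd rfl h
      have h3 : sg a + sg k ≠ 0 := fun e => h (by rw [e]; simp)
      have h5 : 0 < a * k := by
        unfold sg at h3
        simp only [Int.cast_pos] at h3
        split_ifs at h3 with p1 p2 p2
        · exact mul_pos p1 p2
        · simp at h3
        · simp at h3
        · exact mul_pos_of_neg_of_neg (by omega) (by omega)
      rw [Int.mem_divisorsAntidiag, Int.toNat_of_nonneg h5.le]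
      exact ⟨rfl, h5.ne'⟩)
  have h3 := ((hasSum_ite_eq (0 : ℕ) (-I * ((1 - 2 * v.1.val / L) / L))).add h2).mul_left
    (L / (2 * I))
  rw [add_sub_cancel] at h3
  refine h3.congr_fun fun m => ?_
  rw [E1, coeff_mk]
  split_ifs with hm
  · subst hm
    simp only [eq_ratCast, Rat.cast_sub, Rat.cast_div, Rat.cast_natCast, Nat.cast_zero, mul_zero,
      zero_mul, Complex.exp_zero, Int.divisorsAntidiag_zero, Finset.sum_empty]
    push_cast
    field_simp
    ring
  · rw [zero_add, Int.divisorsAntidiag_natCast, Finset.sum_disjUnion, Finset.sum_map,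
      Finset.sum_map, ← Finset.sum_add_distrib, Finset.mul_sum, Finset.sum_mul]
    refine Finset.sum_congr rfl fun p hp => ?_
    obtain ⟨e, -⟩ := Nat.mem_divisorsAntidiagonal.mp hp
    have p1 : 0 < p.1 := Nat.pos_of_ne_zero fun h => hm (by rw [← e, h, zero_mul])
    have p2 : 0 < p.2 := Nat.pos_of_ne_zero fun h => hm (by rw [← e, h, mul_zero])
    have r1 : (0 : ℝ) < p.1 := by exact_mod_cast p1
    have r2 : (0 : ℝ) < p.2 := by exact_mod_cast p2
    change _ = _ * (WW L (ind v) z ((p.1 : ℤ), (p.2 : ℤ)) + WW L (ind v) z (-(p.1 : ℤ), -(p.2 : ℤ)))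
    have q : cexp (2 * π * I / L) ^ ((-v.2).val * p.2) =
        cexp (2 * π * I * (v.2.val * -(p.2 : ℂ)) / L) := by
      obtain ⟨j, hj⟩ : (L : ℤ) ∣ (-v.2).val + v.2.val := by
        rw [← ZMod.intCast_zmod_eq_zero_iff_dvd]
        simp
      have hj' : ((-v.2).val : ℂ) + v.2.val = L * j := by exact_mod_cast hj
      rw [← Complex.exp_nat_mul, ← mul_one (cexp (_ / _)),
        ← Complex.exp_int_mul_two_pi_mul_I (j * p.2), ← Complex.exp_add]
      congr 1
      push_cast
      field_simp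
      linear_combination p.2 * hj'
    have q' : cexp (2 * π * I / L) ^ (v.2.val * p.2) =
        cexp (2 * π * I * (v.2.val * (p.2 : ℂ)) / L) := by
      rw [← Complex.exp_nat_mul]
      congr 1
      push_cast
      ring
    have q2 : cexp (2 * π * I * m * (z / L)) = cexp (2 * π * I * (p.1 * p.2 * z / L)) := by
      rw [← e]
      congr 1
      push_cast
      ring
    simp only [WW, hat_ind, sg, Int.cast_natCast, Int.cast_neg, r1, r2, if_true, Left.neg_pos_iff,
      r1.not_gt, r2.not_gt, if_false, ne_eq, neg_eq_zero, Nat.cast_eq_zero, p1.ne', p2.ne',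
      not_false_eq_true, and_self, neg_mul_neg, q, q', q2, neg_eq_iff_eq_neg, neg_zero,
      Int.natCast_eq_zero]
    split_ifs <;> push_cast <;> field_simp <;> ring_nf

theorem qe_hol {F : ℍ → ℂ} {c : ℕ → ℂ} (h : P004N.QE F c) : MDiff F := by
  refine UpperHalfPlane.mdifferentiable_iff.2 fun τ (hτ : 0 < τ.im) => ?_
  let y : ℍ := ⟨(τ.im / 2 : ℝ) * I, by simpa using hτ⟩
  have hU : IsOpen {w : ℂ | τ.im / 2 < w.im} := isOpen_lt continuous_const continuous_im
  have hm := hU.mem_nhds (show τ ∈ _ from half_lt_self hτ)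
  refine (((differentiableOn_tsum_of_summable_norm (summable_norm_iff.2 (h y).summable)
    (F := fun n w => c n * cexp (2 * π * I * n * w)) (fun n => by fun_prop) hU
    fun n w (hw : τ.im / 2 < w.im) => ?_).differentiableAt hm).congr_of_eventuallyEq
      ?_).differentiableWithinAt
  · rw [norm_mul, norm_mul, Complex.norm_exp, Complex.norm_exp]
    refine mul_le_mul_of_nonneg_left (Real.exp_le_exp.2 ?_) (norm_nonneg _)
    have : (0 : ℝ) ≤ 2 * π * n := by positivity
    simp [y]
    nlinarith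
  · filter_upwards [hm] with w (hw : τ.im / 2 < w.im)
    have k : 0 < w.im := by linarith
    rw [Function.comp, ← (h _).tsum_eq, ofComplex_apply_of_im_pos k]

end Vale.Agent.P014T.Rk
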