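import Vale.Agent.P014T.Rk.Eis
import Vale.Agent.P004C.Wa.Lift1
import Vale.Agent.P004Z.W2.Pet
import Vale.Agent.P004N.H974.Forms

/-!
# P014 T, block Rk: the form of weight two, its Petersson product as a double integral
-/

set_option linter.all false

open MeasureTheory Set Complex Filter PowerSeries CongruenceSubgroup
open UpperHalfPlane hiding I
open scoped Real Classical Topology MatrixGroups Manifold ModularForm ComplexConjugate

noncomputable section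

namespace Vale.Agent.P014T.Rk

open Vale.Agent.P004C.Wa Vale.Agent.P004C.Wa.Sk Vale.Agent.P004Z Vale.Agent.P004Z.W2 P004N

variable {L N : ℕ} [NeZero L] {G : ℍ → ℂ} {Φ : (ZMod L × ZMod L) × (ZMod L × ZMod L) → ℂ}

theorem sl_jj (F : ℍ → ℂ) (g : SL(2, ℤ)) (z : ℍ) : F (g • z) = jj g z ^ 2 * (F ∣[(2 : ℤ)] g) z := by
  have := jj_ne g z
  rw [ModularForm.SL_slash_apply, ← jj_eq, zpow_neg, zpow_two]
  field_simp

theorem g_bd (hN : 0 < N) (hG : S2 N G) : ∃ C, 0 ≤ C ∧ ∀ (g : SL(2, ℤ)) (z : ℍ),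
    ‖(G ∣[(2 : ℤ)] g) z‖ * z.im ^ 2 ≤ C := by
  have : NeZero N := ⟨hN.ne'⟩
  have N0 : (0 : ℝ) < N := Nat.cast_pos.2 hN
  obtain ⟨-, D, hD⟩ := bq hN hG
  have k : ∀ g : SL(2, ℤ), ∃ C, ∀ z : ℍ, ‖(G ∣[(2 : ℤ)] g) z‖ * z.im ^ 2 ≤ C := fun g => by
    obtain ⟨c, c0, hc⟩ := ((hG.zero g).exp_decay_atImInfty N0 (T3.per hG g)
      (T3.mdiff_slash hG g) (T3.bdd_slash hG g)).exists_pos
    obtain ⟨A, hA⟩ := (atImInfty_mem _).1 hc.bound
    refine ⟨max (c * (2 / (2 * π / N) ^ 2)) (D * A), fun z => ?_⟩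
    have y0 := z.im_pos
    rcases le_total A z.im with h | h
    · refine le_max_of_le_left ((mul_le_mul_of_nonneg_right (hA z h) (sq_nonneg _)).trans ?_)
      have := Real.quadratic_le_exp_of_nonneg (x := 2 * π / N * z.im) (by positivity)
      rw [mul_assoc, Real.norm_of_nonneg (Real.exp_pos _).le, show -2 * π * z.im / N =
        -(2 * π / N * z.im) by ring, Real.exp_neg]
      refine mul_le_mul_of_nonneg_left ?_ c0.le
      rw [inv_mul_le_iff₀ (Real.exp_pos _), ← mul_div_assoc, le_div_iff₀ (by positivity)]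
      have : 0 < 2 * π / N * z.im := by positivity
      nlinarith
    · have e := hD (g • z)
      have j := norm_pos_iff.2 (jj_ne g z)
      rw [sl_jj G, Lf.im_sm, norm_mul, norm_pow, mul_comm (_ ^ 2), mul_assoc,
        mul_div_cancel₀ _ (by positivity)] at e
      rw [sq, ← mul_assoc]
      exact le_max_of_le_right (mul_le_mul e h y0.le ((by positivity : (0 : ℝ) ≤ _).trans e))
  choose C hC using k
  obtain ⟨B, hB⟩ := Finite.bddAbove_range fun q : SL(2, ℤ) ⧸ Gamma0 N => C q.out⁻¹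
  have b : ∀ (g : SL(2, ℤ)) (z : ℍ), ‖(G ∣[(2 : ℤ)] g) z‖ * z.im ^ 2 ≤ B := fun g z => by
    obtain ⟨h, e⟩ := QuotientGroup.mk_out_eq_mul (Gamma0 N) g⁻¹
    have := (hC _ z).trans (hB ⟨(g⁻¹ : SL(2, ℤ)), rfl⟩)
    rwa [e, mul_inv_rev, inv_inv, SlashAction.slash_mul, hG.slash _ (inv_mem h.2)] at this
  exact ⟨B, le_trans (by positivity) (b 1 UpperHalfPlane.I), b⟩

/-- the form -/
def Fz (Φ : (ZMod L × ZMod L) × (ZMod L × ZMod L) → ℂ) (z : ℍ) : ℂ :=
  ∑ Y, Φ Y * (EE Y.1 z * EE Y.2 z)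

theorem Fz_sl (g : SL(2, ℤ)) (z : ℍ) :
    (Fz Φ ∣[(2 : ℤ)] g) z = ∑ Y, Φ Y * (EE (ra Y.1 g) z * EE (ra Y.2 g) z) := by
  refine mul_left_cancel₀ (pow_ne_zero 2 (jj_ne g z)) ?_
  rw [← sl_jj, Fz, Finset.mul_sum]
  exact Finset.sum_congr rfl fun Y _ => by rw [EE_smul, EE_smul]; ring

theorem Fz_sum (h0 : ∀ Y, Φ Y ≠ 0 → Y.1.1 ≠ 0 ∧ Y.2.1 ≠ 0) (z : ℍ) :
    HasSum (fun n : ℕ => coeff n (FF L (cexp (2 * π * I / L)) Φ) * cexp (2 * π * I * n * (z / L)))
      (Fz Φ z) := by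
  simp only [FF, map_sum, Finset.sum_mul, coeff_smul, smul_eq_mul, mul_assoc (Φ _)]
  refine hasSum_sum fun Y _ => ?_
  by_cases h : Φ Y = 0
  · simpa [h] using hasSum_zero
  have a := qexp (h0 Y h).1 z
  have b := qexp (h0 Y h).2 z
  have a' := summable_norm_iff.2 a.summable
  have b' := summable_norm_iff.2 b.summable
  have := (summable_norm_sum_mul_antidiagonal_of_summable_norm a' b').of_norm.hasSum
  rw [← tsum_mul_tsum_eq_tsum_sum_antidiagonal_of_summable_norm a' b', a.tsum_eq, b.tsum_eq] at this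
  refine (this.congr_fun fun n => ?_).mul_left _
  rw [coeff_mul, Finset.sum_mul]
  refine Finset.sum_congr rfl fun p hp => ?_
  rw [← Finset.HasAntidiagonal.mem_antidiagonal.1 hp, mul_mul_mul_comm, ← Complex.exp_add]
  congr 2
  push_cast
  ring

theorem Fz_form (h0 : ∀ Y, Φ Y ≠ 0 → Y.1.1 ≠ 0 ∧ Y.2.1 ≠ 0)
    (h1 : ∀ g ∈ Gamma0 N, ∀ Y, Φ (ra Y.1 g, ra Y.2 g) = Φ Y) : Mk N 2 (Fz Φ) ∧
    P004N.QE (Fz Φ) (fun n => coeff (L * n) (FF L (cexp (2 * π * I / L)) Φ)) ∧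
    ∀ n, ¬ L ∣ n → coeff n (FF L (cexp (2 * π * I / L)) Φ) = 0 := by
  have L0 : (L : ℂ) ≠ 0 := by exact_mod_cast NeZero.ne L
  have s : ∀ g ∈ Gamma0 N, Fz Φ ∣[(2 : ℤ)] g = Fz Φ := fun g hg => funext fun z => by
    rw [Fz_sl, Fz, ← ((raE (ZMod L) g).prodCongr (raE (ZMod L) g)).sum_comp
      fun Y => Φ Y * (EE Y.1 z * EE Y.2 z)]
    exact Finset.sum_congr rfl fun Y _ => by rw [← h1 g hg Y]; rfl
  have z0 : ∀ n, ¬ L ∣ n → coeff n (FF L (cexp (2 * π * I / L)) Φ) = 0 := fun n hn => by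
    have q1 : P004N.QE (up L (Fz Φ)) fun n => coeff n (FF L (cexp (2 * π * I / L)) Φ) := fun z => by
      simpa only [coe_up (NeZero.pos L), mul_div_cancel_left₀ _ L0, up] using
        Fz_sum h0 (ofComplex (L * z))
    have q2 : P004N.QE (up L (Fz Φ)) fun n => coeff n (FF L (cexp (2 * π * I / L)) Φ) *
        cexp (2 * π * I * n / L) := fun z => by
      have := Fz_sum h0 (ModularGroup.T • ofComplex (L * z))
      rw [sl_jj (Fz Φ), s _ (Lf.mem0.2 (by simp [ModularGroup.T])), coe_sm, coe_up (NeZero.pos L)] at this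
      simp only [jj, ModularGroup.T] at this
      simp at this
      refine this.congr_fun fun n => ?_
      rw [mul_assoc, ← Complex.exp_add]
      congr 2
      field_simp
      ring
    have e := congrFun (H461.QE.unique q1 q2) n
    by_contra k
    exact hn ((Complex.exp_two_pi_mul_I_mul_div_eq_one_iff (NeZero.ne L)).1
      (mul_left_cancel₀ k (e.symm.trans (mul_one _).symm)))
  have q : P004N.QE (Fz Φ) fun n => coeff (L * n) (FF L (cexp (2 * π * I / L)) Φ) := fun z => by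
    have := Fz_sum h0 z
    rw [← (mul_right_injective₀ (NeZero.ne L)).hasSum_iff fun n k => by
      rw [z0 n fun ⟨c, e⟩ => k ⟨c, e.symm⟩, zero_mul]] at this
    refine this.congr_fun fun n => ?_
    simp only [Function.comp]
    congr 2
    push_cast
    field_simp
  refine ⟨⟨qe_hol q, s, fun g => ?_⟩, q, z0⟩
  obtain ⟨C, hC⟩ := psi_bd L
  have b : ∀ (v : ZMod L × ZMod L) (z : ℍ), 1 / 2 ≤ z.im → ‖EE v z‖ ≤ ‖L / (2 * I)‖ * C :=
    fun v z h => (norm_mul_le _ _).trans (mul_le_mul_of_nonneg_left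
      ((norm_integral_le_integral_norm _).trans (hC v z h)) (norm_nonneg _))
  refine isBoundedAtImInfty_iff.2 ⟨∑ Y, ‖Φ Y‖ * (‖L / (2 * I)‖ * C * (‖L / (2 * I)‖ * C)), 1 / 2,
    fun z h => ?_⟩
  rw [Fz_sl]
  refine norm_sum_le_of_le _ fun Y _ => ?_
  rw [norm_mul, norm_mul]
  exact mul_le_mul_of_nonneg_left (mul_le_mul (b _ z h) (b _ z h) (norm_nonneg _)
    ((norm_nonneg _).trans (b 0 z h))) (norm_nonneg _)

/-- the product of the two kernels against the cusp form -/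
def BB (G : ℍ → ℂ) (φ : (ℤ × ℤ) × (ℤ × ℤ) → ℂ) (p : ℝ × ℝ) (z : ℍ) : ℂ :=
  ∑' X : (ℤ × ℤ) × (ℤ × ℤ), φ X * (conj (G z) * z.im ^ 2 * (kk p.1 X.1 z * kk p.2 X.2 z))

theorem summ2 {p : ℝ × ℝ} (h1 : 0 < p.1) (h2 : 0 < p.2) (z : ℍ) :
    Summable fun X : (ℤ × ℤ) × (ℤ × ℤ) => ‖kk p.1 X.1 z * kk p.2 X.2 z‖ :=
  Summable.mul_norm (f := fun w => kk p.1 w z) (g := fun w => kk p.2 w z) (summ_kk h1 z.im_pos)
    (summ_kk h2 z.im_pos)

theorem meas_kk (w : ℤ × ℤ) : Measurable fun x : ℝ × ℍ => kk x.1 w x.2 := by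
  have c : Measurable fun x : ℝ × ℍ => (x.2 : ℂ) := continuous_coe.measurable.comp measurable_snd
  have u : Measurable fun x : ℝ × ℍ => (w.1 : ℂ) * x.2 + w.2 := (c.const_mul _).add_const _
  exact ((continuous_conj.measurable.comp u).div (measurable_ofReal.comp (measurable_im.comp c))).mul
    (measurable_ofReal.comp (((measurable_fst.const_mul π).mul
      (continuous_normSq.measurable.comp u)).div (measurable_im.comp c)).neg.exp)

/-- reduction of the rows -/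
def rd (L : ℕ) (X : (ℤ × ℤ) × (ℤ × ℤ)) : (ZMod L × ZMod L) × (ZMod L × ZMod L) :=
  ((X.1.1, X.1.2), (X.2.1, X.2.2))

theorem fub (hN : 0 < N) (hG : S2 N G) (hF : Continuous (Fz Φ)) :
    IntegrableOn (fun p => ∫ z, BB G (Φ ∘ rd L) p z ∂fm (Gamma0 N)) (Ioi 0 ×ˢ Ioi 0) ∧
    pet2 N (Fz Φ) G = -L ^ 2 / 4 * ∫ p in Ioi 0 ×ˢ Ioi 0, ∫ z, BB G (Φ ∘ rd L) p z ∂fm (Gamma0 N) := by
  have : NeZero N := ⟨hN.ne'⟩
  set μ : Measure ℝ := volume.restrict (Ioi 0) with hμ
  set f : (ZMod L × ZMod L) × (ZMod L × ZMod L) → ℍ × (ℝ × ℝ) → ℂ := fun Y x =>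
    conj (G x.1) * x.1.im ^ 2 * (PsiK (ind Y.1) x.2.1 x.1 * PsiK (ind Y.2) x.2.2 x.1) with hf
  have mP : ∀ v : ZMod L × ZMod L, Measurable fun x : ℝ × ℍ => PsiK (ind v) x.1 x.2 := fun v =>
    Measurable.tsum fun w => (meas_kk w).const_mul _
  have iP := fun (v : ZMod L × ZMod L) (z : ℍ) => (psi_int (ind_per v) z.im_pos).1
  have iQ : ∀ Y z, Integrable (fun p => f Y (z, p)) (μ.prod μ) := fun Y z =>
    (Integrable.mul_prod (iP Y.1 z) (iP Y.2 z)).const_mul (conj (G z) * z.im ^ 2)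
  obtain ⟨C, hC⟩ := psi_bd L
  obtain ⟨D, D0, hD⟩ := g_bd hN hG
  have i1 : ∀ Y, Integrable (f Y) ((fm (Gamma0 N)).prod (μ.prod μ)) := fun Y => by
    have m : AEStronglyMeasurable (f Y) ((fm (Gamma0 N)).prod (μ.prod μ)) :=
      ((((continuous_conj.comp hG.holo.continuous).mul ((continuous_ofReal.comp
        UpperHalfPlane.continuous_im).pow 2)).measurable.comp measurable_fst).mul
        (((mP _).comp (measurable_snd.fst.prodMk measurable_fst)).mul
        ((mP _).comp (measurable_snd.snd.prodMk measurable_fst)))).aestronglyMeasurable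
    refine (integrable_prod_iff m).2 ⟨.of_forall (iQ Y), .of_bound m.norm.integral_prod_right' (D * (C * C))
      (.of_forall fun z => ?_)⟩
    obtain ⟨g, hg⟩ := ModularGroup.exists_smul_mem_fd z
    obtain ⟨τ, rfl⟩ : ∃ τ, z = g⁻¹ • τ := ⟨g • z, by simp⟩
    rw [smul_inv_smul] at hg
    have y : 1 / 2 ≤ τ.im := by
      nlinarith [ModularGroup.three_le_four_mul_im_sq_of_mem_fd hg, τ.im_pos]
    have j := norm_pos_iff.2 (jj_ne g⁻¹ τ)
    have n := fun v : ZMod L × ZMod L => integral_nonneg (μ := μ)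
      (f := fun t => ‖PsiK (ind v) t τ‖) fun _ => norm_nonneg _
    rw [Real.norm_of_nonneg (integral_nonneg fun _ => norm_nonneg _)]
    simp only [hf, psi_smul, norm_mul, mul_mul_mul_comm ‖jj _ _‖, integral_const_mul]
    rw [integral_prod_mul (fun t => ‖PsiK (ind _) t τ‖) fun t => ‖PsiK (ind _) t τ‖, ← mul_assoc]
    refine mul_le_mul (le_of_eq_of_le ?_ (hD g⁻¹ τ)) (mul_le_mul (hC _ τ y) (hC _ τ y) (n _)
      ((n 0).trans (hC 0 τ y))) (mul_nonneg (n _) (n _)) D0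
    rw [norm_conj, sl_jj G, norm_pow, norm_real, Real.norm_of_nonneg (im_pos _).le, Lf.im_sm,
      norm_mul, norm_pow]
    field_simp
  have i2 := integrable_finsetSum Finset.univ fun Y _ => (i1 Y).const_mul (Φ Y)
  have e1 : ∀ z, petersson 2 G (Fz Φ) z =
      -L ^ 2 / 4 * ∫ p, ∑ Y, Φ Y * f Y (z, p) ∂μ.prod μ := fun z => by
    rw [integral_finsetSum _ fun Y _ => (iQ Y z).const_mul _,
      petersson, Fz, Finset.mul_sum, Finset.sum_mul, Finset.mul_sum]
    refine Finset.sum_congr rfl fun Y _ => ?_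
    simp only [hf, integral_const_mul, EE, zpow_two]
    rw [integral_prod_mul (fun t => PsiK (ind _) t z) fun t => PsiK (ind _) t z]
    field_simp
    rw [I_sq]
    ring
  have e2 : ∀ p ∈ Ioi (0 : ℝ) ×ˢ Ioi (0 : ℝ), ∫ z, ∑ Y, Φ Y * f Y (z, p) ∂fm (Gamma0 N) =
      ∫ z, BB G (Φ ∘ rd L) p z ∂fm (Gamma0 N) := fun p hp => by
    refine integral_congr_ae (.of_forall fun z => ?_)
    have s : ∀ (v : ZMod L × ZMod L) {t : ℝ}, 0 < t → Summable fun w => ‖ind v w * kk t w z‖ :=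
      fun v t ht => .of_nonneg_of_le (fun _ => norm_nonneg _) (fun w => (norm_mul_le _ _).trans
        (mul_le_of_le_one_left (norm_nonneg _) ((ind_per v).1 w))) (summ_kk ht z.im_pos)
    have t : ∀ Y, HasSum (fun X : (ℤ × ℤ) × (ℤ × ℤ) => Φ Y * (conj (G z) * z.im ^ 2 *
        (ind Y.1 X.1 * kk p.1 X.1 z * (ind Y.2 X.2 * kk p.2 X.2 z)))) (Φ Y * f Y (z, p)) := fun Y => by
      have := (Summable.mul_norm (f := fun w => ind Y.1 w * kk p.1 w z)
        (g := fun w => ind Y.2 w * kk p.2 w z) (s _ hp.1) (s _ hp.2)).of_norm.hasSum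
      rw [← tsum_mul_tsum_of_summable_norm (s _ hp.1) (s _ hp.2)] at this
      exact (this.mul_left _).mul_left _
    refine (hasSum_sum fun Y _ => t Y).tsum_eq.symm.trans (tsum_congr fun X => ?_)
    rw [Finset.sum_eq_single (rd L X) (fun Y _ h => ?_) (by simp)]
    · simp [ind, rd]
    · by_cases a : ind Y.1 X.1 = 0
      · simp [a]
      by_cases b : ind Y.2 X.2 = 0
      · simp [b]
      simp only [ind, ite_eq_right_iff, one_ne_zero, imp_false, not_not] at a b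
      exact absurd (Prod.ext (Prod.ext a.1 a.2) (Prod.ext b.1 b.2) : rd L X = Y).symm h
  have ms := (measurableSet_Ioi (a := (0 : ℝ))).prod (measurableSet_Ioi (a := (0 : ℝ)))
  have e3 : μ.prod μ = volume.restrict (Ioi 0 ×ˢ Ioi 0) := Measure.prod_restrict _ _
  have i3 := i2.integral_prod_right
  rw [e3] at i3
  refine ⟨IntegrableOn.congr_fun i3 e2 ms, ?_⟩
  rw [← setIntegral_congr_fun ms e2, ← e3, ← integral_integral_swap i2, ← integral_const_mul,
    ← funext e1]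
  refine (int_fm _ (petersson_continuous 2 hG.holo.continuous hF).measurable ?_).symm
  rw [funext e1]
  exact i2.integral_prod_left.const_mul _

end Vale.Agent.P014T.Rk
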