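import Vale.Agent.P014T.Rk.Unf
import Vale.Agent.P004Z.EF.Lat

/-!
# P014 T, block Rk: the integral along the rays
-/

set_option linter.all false

open MeasureTheory Set Complex Filter CongruenceSubgroup
open UpperHalfPlane hiding I
open scoped Real Classical Topology MatrixGroups Manifold ModularForm ComplexConjugate

noncomputable section

namespace Vale.Agent.P014T.Rk

open Vale.Agent.P004C.Wa Vale.Agent.P004C.Wa.Sk Vale.Agent.P004Z.W2 P004N Vale.Agent.P027M.ES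

theorem cov {f : ℝ × ℝ → ℂ} (hf : IntegrableOn f (Ioi 0 ×ˢ Ioi 0)) :
    ∫ p in Ioi 0 ×ˢ Ioi 0, f p = ∫ t in Ioi (0 : ℝ), ∫ ρ in Ioi (0 : ℝ),
      (2 * t / ρ) • f (t / ρ, t * ρ) := by
  have ms := (measurableSet_Ioi (a := (0 : ℝ))).prod (measurableSet_Ioi (a := (0 : ℝ)))
  let D : ℝ × ℝ → ℝ × ℝ →L[ℝ] ℝ × ℝ := fun p => (Matrix.toLin (.finTwoProd ℝ) (.finTwoProd ℝ)
    !![p.2⁻¹, -p.1 / p.2 ^ 2; p.2, p.1]).toContinuousLinearMap
  have d : ∀ p ∈ Ioi (0 : ℝ) ×ˢ Ioi (0 : ℝ), HasFDerivWithinAt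
      (fun p : ℝ × ℝ => (p.1 / p.2, p.1 * p.2)) (D p) (Ioi 0 ×ˢ Ioi 0) p := fun p hp => by
    have h2 : p.2 ≠ 0 := ne_of_gt hp.2
    refine HasFDerivAt.hasFDerivWithinAt ((HasFDerivAt.prodMk (𝕜 := ℝ) (hasFDerivAt_fst.mul
      ((hasDerivAt_inv h2).comp_hasFDerivAt p hasFDerivAt_snd))
      (hasFDerivAt_fst.mul hasFDerivAt_snd)).congr_fderiv ?_)
    ext <;> simp [D, Matrix.toLin_finTwoProd_toContinuousLinearMap, div_eq_mul_inv]
  have i : InjOn (fun p : ℝ × ℝ => (p.1 / p.2, p.1 * p.2)) (Ioi 0 ×ˢ Ioi 0) := by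
    rintro ⟨a, b⟩ ⟨(h1 : 0 < a), (h2 : 0 < b)⟩ ⟨c, d⟩ ⟨(h3 : 0 < c), (h4 : 0 < d)⟩ e
    simp only [Prod.mk.injEq, div_eq_div_iff h2.ne' h4.ne'] at e
    obtain rfl : a = c := (mul_self_inj h1.le h3.le).1 (mul_right_cancel₀ (mul_pos h2 h4).ne'
      (by linear_combination a * b * e.1 + c * b * e.2))
    rw [mul_left_cancel₀ h1.ne' e.2]
  have s : (fun p : ℝ × ℝ => (p.1 / p.2, p.1 * p.2)) '' (Ioi 0 ×ˢ Ioi 0) = Ioi 0 ×ˢ Ioi 0 := by
    refine Subset.antisymm ?_ ?_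
    · rintro _ ⟨p, hp, rfl⟩
      exact ⟨div_pos (mem_Ioi.1 hp.1) hp.2, mul_pos (mem_Ioi.1 hp.1) hp.2⟩
    · rintro ⟨a, b⟩ ⟨(h1 : 0 < a), (h2 : 0 < b)⟩
      have h3 := Real.sqrt_pos.2 h1
      have h4 := Real.sqrt_pos.2 h2
      refine ⟨(√a * √b, √b / √a), ⟨mul_pos h3 h4, div_pos h4 h3⟩, Prod.ext ?_ ?_⟩ <;>
        simp only <;> field_simp <;> exact Real.sq_sqrt (by positivity)
  have e : EqOn (fun p => |(D p).det| • f (p.1 / p.2, p.1 * p.2))
      (fun p => (2 * p.1 / p.2) • f (p.1 / p.2, p.1 * p.2)) (Ioi 0 ×ˢ Ioi 0) := by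
    rintro ⟨a, b⟩ ⟨(h1 : 0 < a), (h2 : 0 < b)⟩
    have : (D (a, b)).det = 2 * a / b := by
      simp only [D, LinearMap.det_toContinuousLinearMap, LinearMap.det_toLin, Matrix.det_fin_two_of]
      field_simp
      ring
    simp only [this, abs_of_pos (by positivity : 0 < 2 * a / b)]
  rw [← s] at hf
  conv_lhs => rw [← s]
  rw [integral_image_eq_integral_abs_det_fderiv_smul volume ms d i, setIntegral_congr_fun ms e]
  exact setIntegral_prod _
    (((integrableOn_image_iff_integrableOn_abs_det_fderiv_smul volume ms d i f).1 hf).congr_fun e ms)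

theorem coe_sc {ρ : ℝ} (h : 0 < ρ) (z : ℍ) : ((ofComplex (ρ * z) : ℍ) : ℂ) = ρ * z := by
  rw [ofComplex_apply_of_im_pos (by simpa using mul_pos h z.im_pos)]

theorem im_sc {ρ : ℝ} (h : 0 < ρ) (z : ℍ) : (ofComplex (ρ * z) : ℍ).im = ρ * z.im := by
  rw [← coe_im, coe_sc h, im_ofReal_mul, coe_im]

theorem jj_S (z : ℍ) : ‖jj ModularGroup.S⁻¹ z‖ = ‖(z : ℂ)‖ := by
  rw [jj, Matrix.SpecialLinearGroup.coe_inv, Matrix.adjugate_fin_two]
  simp [ModularGroup.S]

theorem im_S (z : ℍ) : (ModularGroup.S⁻¹ • z).im = z.im / ‖(z : ℂ)‖ ^ 2 := by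
  rw [Lf.im_sm, jj_S]

variable {g P : ℍ → ℂ} {C : ℝ} {x y : ℂ}

theorem ray_bd (h1 : ∀ z, ‖g z‖ * z.im ^ 2 ≤ C)
    (h2 : ∀ z, ‖(g ∣[(2 : ℤ)] ModularGroup.S) z‖ * z.im ^ 2 ≤ C) {ρ : ℝ} (h : 0 < ρ) (z : ℍ) :
    ‖g (ofComplex (ρ * z)) * z‖ ≤
      (1 + ρ ^ 2)⁻¹ * (C * ((‖(z : ℂ)‖ ^ 2 + 1) * ‖(z : ℂ)‖ / z.im ^ 2)) := by
  have y := z.im_pos
  have n := norm_pos_iff.2 z.ne_zero
  have a := h1 (ofComplex (ρ * z))
  have b := h2 (ModularGroup.S⁻¹ • ofComplex (ρ * z))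
  have c := congrArg norm (sl_jj (g ∣[(2 : ℤ)] ModularGroup.S) ModularGroup.S⁻¹ (ofComplex (ρ * z)))
  rw [← SlashAction.slash_mul, mul_inv_cancel, SlashAction.slash_one, norm_mul, norm_pow,
    jj_S] at c
  rw [c, im_S, coe_sc h, im_sc h, norm_mul, norm_real, Real.norm_of_nonneg h.le] at b
  rw [im_sc h] at a
  rw [norm_mul, le_inv_mul_iff₀ (by positivity), ← mul_div_assoc, le_div_iff₀ (by positivity)]
  generalize ‖g (ofComplex (ρ * z))‖ = u at *
  have b' : u * z.im ^ 2 ≤ C * ‖(z : ℂ)‖ ^ 2 := by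
    rw [← div_le_iff₀ (by positivity)]
    refine le_of_eq_of_le ?_ b
    field_simp
  nlinarith

theorem ray (hP : Prim g P) (hx : Tendsto P atImInfty (𝓝 x))
    (hy : Tendsto (fun z => P (ModularGroup.S • z)) atImInfty (𝓝 y)) (z : ℍ)
    (i : IntegrableOn (fun ρ : ℝ => g (ofComplex (ρ * z)) * z) (Ioi 0)) :
    ∫ ρ in Ioi (0 : ℝ), g (ofComplex (ρ * z)) * z = (x - y) / (2 * π * I) := by
  have y0 := z.im_pos
  have n := norm_pos_iff.2 z.ne_zero
  set f : ℝ → ℂ := fun ρ => if 0 < ρ then P (ofComplex (ρ * z)) else y with hf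
  have e : ∀ ρ : ℝ, 0 < ρ → P (ofComplex (ρ * z)) = f ρ := fun ρ h => (if_pos h).symm
  have := integral_Ioi_of_hasDerivAt_of_tendsto (f := f) (a := 0) (m := x) ?_ (fun ρ (h : 0 < ρ) => ?_)
    (i.const_mul (2 * π * I)) ?_
  · rw [integral_const_mul] at this
    rw [eq_div_iff two_pi_I_ne_zero, mul_comm, this]
    simp [hf]
  · rw [← continuousWithinAt_Ioi_iff_Ici, ContinuousWithinAt, show f 0 = y by simp [hf]]
    have t : Tendsto (fun ρ : ℝ => ModularGroup.S⁻¹ • ofComplex (ρ * z)) (𝓝[>] 0) atImInfty := by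
      refine tendsto_comap_iff.2 ((tendsto_inv_nhdsGT_zero.atTop_mul_const
        (div_pos y0 (pow_pos n 2))).congr' (eventually_mem_nhdsWithin.mono fun ρ (h : 0 < ρ) => ?_))
      simp only [Function.comp, im_S, coe_sc h, im_sc h, norm_mul, norm_real,
        Real.norm_of_nonneg h.le]
      field_simp
    refine (hy.comp t).congr' (eventually_mem_nhdsWithin.mono fun ρ h => ?_)
    simp only [Function.comp, smul_inv_smul, e ρ h]
  · have d := hP (ofComplex (ρ * z))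
    rw [coe_sc h] at d
    have := (d.comp (ρ : ℂ) (hasDerivAt_mul_const (z : ℂ))).comp_ofReal
    rw [mul_assoc] at this
    exact this.congr_of_eventuallyEq ((eventually_gt_nhds h).mono fun r k => (e r k).symm)
  · refine (hx.comp (tendsto_comap_iff.2 ((tendsto_id.atTop_mul_const y0).congr'
      ((eventually_gt_atTop 0).mono fun ρ h => (im_sc h z).symm)))).congr'
      ((eventually_gt_atTop 0).mono e)

theorem JJ_sc (g : ℍ → ℂ) (s : ℝ) {ρ : ℝ} (h : 0 < ρ) : JJ g (s / ρ, s * ρ) =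
    ρ * ∫ z : ℍ, conj (g (ofComplex (ρ * z)) * z) * ex (s, s) z := by
  let m : GL (Fin 2) ℝ := Matrix.GeneralLinearGroup.mkOfDetNeZero !![ρ, 0; 0, 1] (by simpa using h.ne')
  have e : ∀ z : ℍ, m • z = ofComplex (ρ * z) := fun z => UpperHalfPlane.ext (by
    rw [coe_sc h, coe_smul_of_det_pos (by simpa [m] using h)]
    simp [m, num, denom])
  rw [JJ, ← (mp m).integral_comp (MeasurableEquiv.smul m).measurableEmbedding, ← integral_const_mul]
  refine integral_congr_ae (.of_forall fun z => ?_)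
  have := z.im_ne_zero
  simp only [e, ex, coe_sc h, im_sc h, norm_mul, norm_real, Real.norm_of_nonneg h.le, map_mul,
    conj_ofReal]
  rw [show π * (s / ρ * (ρ * ‖(z : ℂ)‖) ^ 2 + s * ρ) / (ρ * z.im) =
    π * (s * ‖(z : ℂ)‖ ^ 2 + s) / z.im by field_simp]
  ring

theorem ex_eq (s : ℝ) (z : ℍ) :
    ex (s, s) z = Real.exp (-(π * s * (Mv.qq UpperHalfPlane.I z + 2))) := by
  rw [ex, ← qq_I]
  congr 1
  ring

theorem ex_le2 {t n : ℝ} (ht : 0 < t) (hn : 1 ≤ n) (z : ℍ) :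
    (‖(z : ℂ)‖ ^ 2 + 1) * ‖(z : ℂ)‖ / z.im ^ 2 * ex (n * t, n * t) z ≤
      4 / (π * t) ^ 2 * Real.exp (-(π * t * n)) * Mv.kk (π * t / 2) UpperHalfPlane.I z := by
  have y := z.im_pos
  have q0 := Mv.qq_nn UpperHalfPlane.I z
  have l0 : 0 < π * t := by positivity
  have a1 : (‖(z : ℂ)‖ ^ 2 + 1) * ‖(z : ℂ)‖ / z.im ^ 2 ≤ (Mv.qq UpperHalfPlane.I z + 2) ^ 2 / 2 := by
    rw [← qq_I, div_pow, div_right_comm, sq (_ + 1), mul_div_assoc (_ + 1) _ 2]
    gcongr
    nlinarith [sq_nonneg (‖(z : ℂ)‖ - 1)]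
  rw [ex_eq, Mv.kk]
  generalize Mv.qq UpperHalfPlane.I z = q at *
  have a2 : (q + 2) ^ 2 / 2 ≤ 4 / (π * t) ^ 2 * Real.exp (π * t * (q + 2) / 2) := by
    rw [div_mul_eq_mul_div, le_div_iff₀ (by positivity)]
    have : 0 ≤ π * t * (q + 2) / 2 := by positivity
    nlinarith [Real.quadratic_le_exp_of_nonneg this]
  refine (mul_le_mul_of_nonneg_right (a1.trans a2) (Real.exp_pos _).le).trans ?_
  rw [mul_assoc (4 / _), mul_assoc (4 / _), ← Real.exp_add, ← Real.exp_add]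
  refine mul_le_mul_of_nonneg_left (Real.exp_le_exp.2 ?_) (by positivity)
  nlinarith [mul_nonneg l0.le (mul_nonneg (sub_nonneg.2 hn) q0), mul_nonneg l0.le (sub_nonneg.2 hn)]

theorem inner (hc : Continuous g) (h1 : ∀ z, ‖g z‖ * z.im ^ 2 ≤ C)
    (h2 : ∀ z, ‖(g ∣[(2 : ℤ)] ModularGroup.S) z‖ * z.im ^ 2 ≤ C) (hP : Prim g P)
    (hx : Tendsto P atImInfty (𝓝 x))
    (hy : Tendsto (fun z => P (ModularGroup.S • z)) atImInfty (𝓝 y)) {c : ℕ → ℂ}
    (s : ∀ l : ℝ, 0 < l → Summable fun n : ℕ => ‖c n‖ * Real.exp (-(l * n))) (c0 : c 0 = 0) {t : ℝ}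
    (ht : 0 < t) : IntegrableOn (fun ρ : ℝ => (2 * t / ρ) •
      ∑' n : ℕ, 2 * (c n * n * JJ g (n * (t / ρ), n * (t * ρ)))) (Ioi 0) ∧
    ∫ ρ in Ioi (0 : ℝ), (2 * t / ρ) • ∑' n : ℕ, 2 * (c n * n * JJ g (n * (t / ρ), n * (t * ρ))) =
      4 * conj ((x - y) / (2 * π * I)) * ∑' n : ℕ, c n * Real.exp (-(2 * π * n * t)) := by
  set μ : Measure ℝ := volume.restrict (Ioi 0) with hμ
  have C0 : 0 ≤ C := le_trans (by positivity) (h1 UpperHalfPlane.I)
  have l0 : 0 < π * t := by positivity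
  have ki := Mv.kk_int (half_pos l0) UpperHalfPlane.I
  have i0 : Integrable (fun ρ : ℝ => (1 + ρ ^ 2)⁻¹) μ := integrable_inv_one_add_sq.integrableOn
  have m : Measurable fun p : ℝ × ℍ => g (ofComplex (p.1 * p.2)) * p.2 :=
    have c := continuous_coe.measurable.comp (measurable_snd (α := ℝ))
    (hc.measurable.comp (P004.H26.H86.meas_ofC.comp
      ((measurable_ofReal.comp measurable_fst).mul c))).mul c
  set F : ℕ → ℝ → ℂ := fun n ρ => 4 * t * n * c n *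
    ∫ z : ℍ, conj (g (ofComplex (ρ * z)) * z) * ex (n * t, n * t) z with hF
  have k : ∀ n, Integrable (F n) μ ∧ ∫ ρ, ‖F n ρ‖ ∂μ ≤ 4 * t * (C * (4 / (π * t) ^ 2) *
      ((∫ ρ, (1 + ρ ^ 2)⁻¹ ∂μ) * (π / (π * t / 2)))) * (n * ‖c n‖ * Real.exp (-(π * t * n))) ∧
      ∫ ρ, F n ρ ∂μ = 4 * conj ((x - y) / (2 * π * I)) * (c n * Real.exp (-(2 * π * n * t))) :=
    fun n => by
    rcases Nat.eq_zero_or_pos n with rfl | n0
    · simp [hF, c0]
    have n1 : (1 : ℝ) ≤ n := by exact_mod_cast n0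
    have i1 := (i0.mul_prod ki).const_mul (C * (4 / (π * t) ^ 2 * Real.exp (-(π * t * n))))
    have bd : ∀ᵐ p : ℝ × ℍ ∂μ.prod volume, ‖conj (g (ofComplex (p.1 * p.2)) * p.2) *
        (ex (n * t, n * t) p.2 : ℂ)‖ ≤ C * (4 / (π * t) ^ 2 * Real.exp (-(π * t * n))) *
        ((1 + p.1 ^ 2)⁻¹ * Mv.kk (π * t / 2) UpperHalfPlane.I p.2) := by
      filter_upwards [Measure.quasiMeasurePreserving_fst.ae (ae_restrict_mem measurableSet_Ioi)]
        with p (hp : 0 < p.1)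
      rw [norm_mul, norm_conj, norm_real, ex, Real.norm_of_nonneg (Real.exp_pos _).le, ← ex]
      refine (mul_le_mul_of_nonneg_right (ray_bd h1 h2 hp p.2) (Real.exp_pos _).le).trans ?_
      rw [← ex, mul_assoc, mul_assoc]
      exact (mul_le_mul_of_nonneg_left (mul_le_mul_of_nonneg_left (ex_le2 ht n1 p.2) C0)
        (by positivity)).trans_eq (by ring)
    have i2 := i1.mono' ((continuous_conj.measurable.comp m).mul (measurable_ofReal.comp
      ((cont_ex (n * t, n * t)).measurable.comp measurable_snd))).aestronglyMeasurable bd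
    refine ⟨i2.integral_prod_left.const_mul _, ?_, ?_⟩
    · simp only [hF, norm_mul (4 * t * n * c n)]
      rw [integral_const_mul]
      refine (mul_le_mul_of_nonneg_left ((integral_mono i2.integral_prod_left.norm
        i2.norm.integral_prod_left fun ρ => norm_integral_le_integral_norm _).trans
        ((integral_prod _ i2.norm).symm.trans_le (integral_mono_ae i2.norm i1 bd)))
        (norm_nonneg _)).trans_eq ?_
      rw [integral_const_mul, integral_prod_mul (fun ρ : ℝ => (1 + ρ ^ 2)⁻¹), Mv.kk_val (half_pos l0)]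
      simp only [norm_mul, norm_real, Real.norm_of_nonneg ht.le, Complex.norm_natCast,
        Complex.norm_ofNat]
      ring
    · have e : ∀ z : ℍ, ∫ ρ : ℝ, conj (g (ofComplex (ρ * z)) * z) * (ex (n * t, n * t) z : ℂ) ∂μ =
          conj ((x - y) / (2 * π * I)) * Real.exp (-(2 * π * n * t)) *
            Mv.kk (π * (n * t)) UpperHalfPlane.I z := fun z => by
        rw [integral_mul_const, integral_conj, ray hP hx hy z ((i0.mul_const _).mono'
          (m.comp (measurable_id.prodMk measurable_const)).aestronglyMeasurable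
          ((ae_restrict_mem measurableSet_Ioi).mono fun ρ h => ray_bd h1 h2 h z)), ex_eq, Mv.kk,
          mul_assoc (conj _), ← ofReal_mul, ← Real.exp_add]
        congr 3
        ring
      have : (n : ℂ) ≠ 0 := Nat.cast_ne_zero.2 n0.ne'
      have : (t : ℂ) ≠ 0 := ofReal_ne_zero.2 ht.ne'
      have : (π : ℂ) ≠ 0 := ofReal_ne_zero.2 Real.pi_ne_zero
      simp only [hF]
      rw [integral_const_mul, integral_integral_swap i2, funext e, integral_const_mul,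
        integral_complex_ofReal, Mv.kk_val (by positivity)]
      generalize conj ((x - y) / (2 * π * I)) = u
      generalize Real.exp (-(2 * π * n * t)) = v
      push_cast
      field_simp
  have sm : Summable fun n => ∫ ρ, ‖F n ρ‖ ∂μ := by
    refine .of_nonneg_of_le (fun _ => integral_nonneg fun _ => norm_nonneg _) (fun n => (k n).2.1)
      (Summable.mul_left _ (.of_nonneg_of_le (fun _ => by positivity) (fun n => ?_)
      ((s _ (half_pos l0)).mul_left (2 / (π * t)))))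
    rw [show -(π * t * n) = -(π * t / 2 * n) + -(π * t / 2 * n) by ring, Real.exp_add,
      mul_mul_mul_comm]
    refine mul_le_mul_of_nonneg_right ?_ (by positivity)
    rw [Real.exp_neg, mul_inv_le_iff₀ (Real.exp_pos _), div_mul_eq_mul_div, le_div_iff₀ l0]
    linarith [Real.add_one_le_exp (π * t / 2 * n)]
  have e : EqOn (fun ρ => ∑' n, F n ρ) (fun ρ : ℝ => (2 * t / ρ) •
      ∑' n : ℕ, 2 * (c n * n * JJ g (n * (t / ρ), n * (t * ρ)))) (Ioi 0) := fun ρ (h : 0 < ρ) => by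
    have : (ρ : ℂ) ≠ 0 := ofReal_ne_zero.2 h.ne'
    simp only [real_smul, ← tsum_mul_left, ← mul_div_assoc, ← mul_assoc (_ : ℝ), JJ_sc g _ h, hF]
    refine tsum_congr fun n => ?_
    push_cast
    field_simp
    ring
  refine ⟨IntegrableOn.congr_fun (P014A.tsum_facts (fun n => (k n).1) sm).2.1 e measurableSet_Ioi, ?_⟩
  rw [← setIntegral_congr_fun measurableSet_Ioi e, ← tsum_mul_left,
    ← (hasSum_integral_of_summable_integral_norm (fun n => (k n).1) sm).tsum_eq]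
  exact tsum_congr fun n => (k n).2.2

end Vale.Agent.P014T.Rk
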