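import Vale.Agent.P014T.Rk.Frm
import Vale.Agent.P004C.Wa.ThaH
import Vale.Agent.P004N.H461.Cf

/-!
# P014 T, block Rk: unfolding
-/

set_option linter.all false

open MeasureTheory Set Complex Filter CongruenceSubgroup
open UpperHalfPlane hiding I
open scoped Real Classical Topology MatrixGroups Manifold ModularForm ComplexConjugate

noncomputable section

namespace Vale.Agent.P014T.Rk

open Vale.Agent.P004C.Wa Vale.Agent.P004C.Wa.Sk Vale.Agent.P004Z.W2 P004N Lf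

/-- the Gaussian -/
def ex (p : ℝ × ℝ) (z : ℍ) : ℝ := Real.exp (-(π * (p.1 * ‖(z : ℂ)‖ ^ 2 + p.2) / z.im))

theorem cont_ex (p : ℝ × ℝ) : Continuous (ex p) :=
  ((continuous_const.mul ((continuous_const.mul (continuous_coe.norm.pow 2)).add
    continuous_const)).div UpperHalfPlane.continuous_im fun z => z.im_ne_zero).neg.rexp

/-- the orbital integral -/
def JJ (g : ℍ → ℂ) (p : ℝ × ℝ) : ℂ := ∫ z : ℍ, conj (g z * z) * ex p z

theorem qq_I (z : ℍ) : (‖(z : ℂ)‖ ^ 2 + 1) / z.im = Mv.qq UpperHalfPlane.I z + 2 := by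
  have := z.im_ne_zero
  simp only [Mv.qq, UpperHalfPlane.I_im, coe_I, ← normSq_eq_norm_sq, normSq_apply, sub_re, sub_im, Complex.I_re,
    Complex.I_im, coe_im]
  field_simp
  ring

theorem ex_le {p : ℝ × ℝ} {m n : ℝ} (m0 : 0 < m) (h1 : m ≤ p.1) (h2 : m ≤ p.2) (hn : 1 ≤ n) (z : ℍ) :
    n / z.im * ‖(z : ℂ)‖ * ex (n * p.1, n * p.2) z ≤
      1 / (π * m) * Real.exp (-(π * m / 2 * n)) * Mv.kk (π * m / 2) UpperHalfPlane.I z := by
  have y := z.im_pos
  have q0 := Mv.qq_nn UpperHalfPlane.I z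
  have l0 : 0 < π * m := by positivity
  set q := Mv.qq UpperHalfPlane.I z with hq
  have a1 : n / z.im * ‖(z : ℂ)‖ ≤ n * (q + 2) / 2 := by
    rw [← qq_I, div_mul_eq_mul_div, ← mul_div_assoc, div_right_comm, mul_div_assoc n _ 2]
    gcongr
    nlinarith [sq_nonneg (‖(z : ℂ)‖ - 1)]
  have a2 : ex (n * p.1, n * p.2) z ≤ Real.exp (-(π * m * (n * (q + 2)))) := by
    rw [ex, ← qq_I, Real.exp_le_exp, neg_le_neg_iff, ← mul_div_assoc, ← mul_div_assoc,
      show π * m * (n * (‖(z : ℂ)‖ ^ 2 + 1)) = π * (n * m * ‖(z : ℂ)‖ ^ 2 + n * m) by ring]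
    dsimp only
    gcongr
  have a3 : n * (q + 2) / 2 ≤ 1 / (π * m) * Real.exp (π * m * (n * (q + 2)) / 2) := by
    rw [one_div, le_inv_mul_iff₀ l0, ← mul_div_assoc]
    linarith [Real.add_one_le_exp (π * m * (n * (q + 2)) / 2)]
  refine (mul_le_mul (a1.trans a3) a2 (Real.exp_pos _).le (by positivity)).trans ?_
  rw [Mv.kk, mul_assoc (1 / _), mul_assoc (1 / _), ← Real.exp_add, ← Real.exp_add, ← hq]
  refine mul_le_mul_of_nonneg_left (Real.exp_le_exp.2 ?_) (by positivity)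
  nlinarith [mul_nonneg l0.le (mul_nonneg (sub_nonneg.2 hn) q0), mul_pos l0 (one_pos.trans_le hn)]

variable (γ : SL(2, ℤ))

/-- `γ⁻¹ adj Y` -/
def xm (Y : P4) : (ℤ × ℤ) × (ℤ × ℤ) :=
  ((γ 1 1 * Y.2.2.2 + γ 0 1 * Y.2.2.1, -(γ 1 1 * Y.2.1) - γ 0 1 * Y.1),
    (-(γ 1 0 * Y.2.2.2) - γ 0 0 * Y.2.2.1, γ 1 0 * Y.2.1 + γ 0 0 * Y.1))

/-- `adj (γ X)` -/
def ym (X : (ℤ × ℤ) × (ℤ × ℤ)) : P4 :=
  (γ 1 0 * X.1.2 + γ 1 1 * X.2.2, -(γ 0 0 * X.1.2 + γ 0 1 * X.2.2),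
    -(γ 1 0 * X.1.1 + γ 1 1 * X.2.1), γ 0 0 * X.1.1 + γ 0 1 * X.2.1)

theorem xm_ym (X : (ℤ × ℤ) × (ℤ × ℤ)) : xm γ (ym γ X) = X := by
  have d := det1 γ
  refine Prod.ext (Prod.ext ?_ ?_) (Prod.ext ?_ ?_) <;> simp only [xm, ym]
  · linear_combination X.1.1 * d
  · linear_combination X.1.2 * d
  · linear_combination X.2.1 * d
  · linear_combination X.2.2 * d

theorem ym_xm (Y : P4) : ym γ (xm γ Y) = Y := by
  have d := det1 γ
  refine Prod.ext ?_ (Prod.ext ?_ (Prod.ext ?_ ?_)) <;> simp only [xm, ym]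
  · linear_combination Y.1 * d
  · linear_combination Y.2.1 * d
  · linear_combination Y.2.2.1 * d
  · linear_combination Y.2.2.2 * d

theorem xm_act (δ : SL(2, ℤ)) (Y : P4) :
    xm γ (act δ Y) = (ra (xm γ Y).1 δ⁻¹, ra (xm γ Y).2 δ⁻¹) := by
  refine Prod.ext (Prod.ext ?_ ?_) (Prod.ext ?_ ?_) <;>
    simp [xm, act, ra, Matrix.adjugate_fin_two] <;> ring

/-- the weight of the matrices of positive determinant -/
def pw (N : ℕ) (w : ℕ → ℂ) (Y : P4) : ℂ :=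
  if (N : ℤ) ∣ Y.2.2.1 ∧ 0 < Y.1 * Y.2.2.2 - Y.2.1 * Y.2.2.1 then
    w (Y.1 * Y.2.2.2 - Y.2.1 * Y.2.2.1).toNat else 0

theorem pw_act {N : ℕ} (w : ℕ → ℂ) {δ : SL(2, ℤ)} (h : δ ∈ Gamma0 N) (Y : P4) :
    pw N w (act δ Y) = pw N w Y := by
  have n : (act δ Y).1 * (act δ Y).2.2.2 - (act δ Y).2.1 * (act δ Y).2.2.1 =
      Y.1 * Y.2.2.2 - Y.2.1 * Y.2.2.1 := by
    simp only [act]
    linear_combination (Y.1 * Y.2.2.2 - Y.2.1 * Y.2.2.1) * det1 δ
  simp only [pw, n, dv (mem0.1 h)]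

variable (G : ℍ → ℂ) (p : ℝ × ℝ)

/-- a term -/
def tm (X : (ℤ × ℤ) × (ℤ × ℤ)) (z : ℍ) : ℂ :=
  conj (G z) * z.im ^ 2 * (kk p.1 X.1 z * kk p.2 X.2 z)

theorem tm_act {δ : SL(2, ℤ)} (h : G ∣[(2 : ℤ)] δ = G) (X : (ℤ × ℤ) × (ℤ × ℤ)) (z : ℍ) :
    tm G p X (δ • z) = tm G p (ra X.1 δ, ra X.2 δ) z := by
  have j := jj_ne δ z
  have j' : conj (jj δ z) ≠ 0 := by rwa [Ne, map_eq_zero]
  simp only [tm, kk_smul, sl_jj G, h, im_sm, ra, Int.cast_id, map_mul, map_pow, ofReal_div,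
    ofReal_pow, ← conj_mul']
  field_simp

theorem tm_rp {a d : ℕ} (ha : 0 < a) (hd : 0 < d) (b : ℕ) (z σ : ℍ)
    (h : (σ : ℂ) = (a * (γ • z : ℍ) + b) / d) :
    tm G p (xm γ (a, b, 0, d)) σ = conj (G σ * (a / jj γ z) ^ 2 * z) *
      ex ((a * d : ℕ) * p.1, (a * d : ℕ) * p.2) z ∧
    ‖a / jj γ z‖ ^ 2 = σ.im * ((a * d : ℕ) / z.im) := by
  have j := jj_ne γ z
  have j0 := norm_pos_iff.2 j
  have y := z.im_pos
  have y' := σ.im_pos
  have a0 : (0 : ℝ) < a := Nat.cast_pos.2 ha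
  have d0 : (0 : ℝ) < d := Nat.cast_pos.2 hd
  have d1 : (d : ℂ) ≠ 0 := Nat.cast_ne_zero.2 hd.ne'
  have dt : (γ 0 0 : ℂ) * (γ 1 1 : ℂ) - (γ 0 1 : ℂ) * (γ 1 0 : ℂ) = 1 := by exact_mod_cast det1 γ
  have e0 : σ.im = a * (z.im / ‖jj γ z‖ ^ 2) / d := by
    rw [← coe_im, h, ← im_sm, ← ofReal_natCast d, div_ofReal_im]
    simp
  have e1 : ((xm γ (a, b, 0, d)).1.1 : ℂ) * σ + (xm γ (a, b, 0, d)).1.2 = z * (a / jj γ z) := by
    rw [h, Lf.coe_sm]
    simp only [xm]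
    push_cast
    field_simp
    simp only [jj]
    linear_combination a * d * z * dt
  have e2 : ((xm γ (a, b, 0, d)).2.1 : ℂ) * σ + (xm γ (a, b, 0, d)).2.2 = a / jj γ z := by
    rw [h, Lf.coe_sm]
    simp only [xm]
    push_cast
    field_simp
    simp only [jj]
    linear_combination a * d * dt
  have e3 : ‖a / jj γ z‖ ^ 2 = σ.im * ((a * d : ℕ) / z.im) := by
    rw [e0, norm_div, Complex.norm_natCast]
    push_cast
    field_simp
  refine ⟨?_, e3⟩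
  have : (σ.im : ℂ) ≠ 0 := ofReal_ne_zero.2 y'.ne'
  simp only [tm, kk, e1, e2, normSq_eq_norm_sq, norm_mul, mul_pow, e3, coe_im, ex, map_mul, map_pow]
  rw [show -(π * ((a * d : ℕ) * p.1 * ‖(z : ℂ)‖ ^ 2 + (a * d : ℕ) * p.2) / z.im) =
    -(π * p.1 * (‖(z : ℂ)‖ ^ 2 * (σ.im * ((a * d : ℕ) / z.im))) / σ.im) +
    -(π * p.2 * (σ.im * ((a * d : ℕ) / z.im)) / σ.im) by field_simp; ring, Real.exp_add]
  push_cast
  field_simp

variable {G p} {N : ℕ} {a : ℕ → ℤ}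

theorem hecke (h : RN N G a) {n : ℕ} (hn : n.Coprime N) (n0 : n ≠ 0) (τ : ℍ) :
    ∑ x ∈ n.divisorsAntidiagonal.sigma fun q => Finset.range q.2,
      G (ofComplex ((x.1.1 * τ + x.2) / x.1.2)) * x.1.1 ^ 2 = n * a n * G τ := by
  have c := H461.pfCf N G a h
  have k := Th.Hd.hk (ε := fun x => if IsCoprime x (N : ℤ) then (x : ℂ) else 0)
    (A := fun n => (a n : ℂ)) (F := G) ⟨by simp [isCoprime_one_left], fun x y => by
      simp only [Nat.cast_mul, IsCoprime.mul_left_iff, Int.cast_mul]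
      by_cases u : IsCoprime (x : ℤ) (N : ℤ) <;> by_cases v : IsCoprime (y : ℤ) (N : ℤ) <;>
        simp [u, v], by simp [c.zero], by simp [c.one], fun k n e => by simp [c.mul k n e],
      fun p j hp => by
        simp only [Nat.isCoprime_iff_coprime, hp.coprime_iff_not_dvd]
        by_cases u : p ∣ N
        · simp [u, c.bad p hp u (j + 1)]
        · simp [u, c.good p hp u j]⟩ (fun z => by simpa only [ee, mul_assoc] using h.qe z) n0 τ
  rw [mul_assoc, ← k, Finset.sum_sigma, Finset.mul_sum]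
  refine Finset.sum_congr rfl fun q hq => ?_
  obtain ⟨e, -⟩ := Nat.mem_divisorsAntidiagonal.1 hq
  have : (q.2 : ℂ) ≠ 0 := Nat.cast_ne_zero.2 (Nat.right_ne_zero_of_mem_divisorsAntidiagonal hq)
  simp only [if_pos (Nat.isCoprime_iff_coprime.2 (e ▸ hn).coprime_mul_right), Finset.mul_sum]
  refine Finset.sum_congr rfl fun b _ => ?_
  rw [← e]
  push_cast
  field_simp

theorem unf_pos (h : RN N G a) {w : ℕ → ℂ} {B : ℝ} (hB : ∀ n, ‖w n‖ ≤ B)
    (hw : ∀ n, w n ≠ 0 → n.Coprime N) (h1 : 0 < p.1) (h2 : 0 < p.2) :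
    Integrable (BB G (pw N w ∘ ym γ) p) (fm (Gamma0 N)) ∧
    HasSum (fun n : ℕ => 2 * (w n * n * a n * JJ (G ∣[(2 : ℤ)] γ) (n * p.1, n * p.2)))
      (∫ z, BB G (pw N w ∘ ym γ) p z ∂fm (Gamma0 N)) := by
  let R := Σ n : ℕ, (n.divisorsAntidiagonal.sigma fun q => Finset.range q.2)
  have r0 : ∀ r : R, r.2.1.1.1 * r.2.1.1.2 = r.1 ∧ 0 < r.2.1.1.1 ∧ r.2.1.2 < r.2.1.1.2 := fun r =>
    have k := Finset.mem_sigma.1 r.2.2
    ⟨(Nat.mem_divisorsAntidiagonal.1 k.1).1, Nat.pos_of_ne_zero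
      (Nat.left_ne_zero_of_mem_divisorsAntidiagonal k.1), Finset.mem_range.1 k.2⟩
  let ι : R → Rp := fun r => ⟨(r.2.1.1.1, r.2.1.2, r.2.1.1.2), Int.natCast_ne_zero.2 (r0 r).2.1.ne',
    (r0 r).2.2⟩
  have inj : Function.Injective ι := by
    rintro ⟨m, ⟨⟨a, d⟩, b⟩, k⟩ ⟨m', ⟨⟨a', d'⟩, b'⟩, k'⟩ e
    simp only [ι, Subtype.mk.injEq, Prod.mk.injEq, Nat.cast_inj] at e
    obtain ⟨rfl, rfl, rfl⟩ := e
    obtain rfl : m = m' := (r0 ⟨_, _, k⟩).1.symm.trans (r0 ⟨_, _, k'⟩).1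
    rfl
  let f : R → ℍ → ℂ := fun r σ => pw N w (rp (ι r)) * tm G p (xm γ (rp (ι r))) σ
  obtain ⟨c, C, hC⟩ := bq h.pos h.s2
  have m0 := lt_min h1 h2
  set m := min p.1 p.2
  set ρ := Real.exp (-(π * m / 6)) with hρ
  have ki := Mv.kk_int (l := π * m / 2) (by positivity) UpperHalfPlane.I
  have mf : ∀ r, Measurable (f r) := fun r => (((continuous_conj.comp c).mul ((continuous_ofReal.comp
    UpperHalfPlane.continuous_im).pow 2)).measurable.mul (((meas_kk _).comp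
      (measurable_const.prodMk measurable_id)).mul ((meas_kk _).comp
      (measurable_const.prodMk measurable_id)))).const_mul _
  have B0 : 0 ≤ B := (norm_nonneg _).trans (hB 0)
  have C0 : 0 ≤ C := le_trans (by positivity) (hC UpperHalfPlane.I)
  have key : ∀ r : R, ∃ f' : ℍ → ℂ, Integrable f' ∧ Integrable (f r) ∧ ∫ σ, f r σ = ∫ z, f' z ∧
      ∫ σ, ‖f r σ‖ ≤ B * C / (π * m) * (π / (π * m / 2)) *
        (ρ ^ (ι r).1.1.natAbs * (ρ ^ (ι r).1.2.1 * ρ ^ (ι r).1.2.2)) ∧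
      ∀ z, f' z = w r.1 * (conj (G (ofComplex ((r.2.1.1.1 * (γ • z : ℍ) + r.2.1.2) / r.2.1.1.2)) *
        r.2.1.1.1 ^ 2 / jj γ z ^ 2 * z) * ex (r.1 * p.1, r.1 * p.2) z) := fun r => by
    obtain ⟨e, a0, b0⟩ := r0 r
    have d0 := (Nat.zero_le _).trans_lt b0
    have dt : 0 < (!![(r.2.1.1.1 : ℤ), r.2.1.2; 0, r.2.1.1.2] : Matrix (Fin 2) (Fin 2) ℤ).det := by
      simpa [a0] using d0
    set g := H461.gl _ dt with hg
    have cg : ∀ τ : ℍ, ((g • τ : ℍ) : ℂ) = (r.2.1.1.1 * τ + r.2.1.2) / r.2.1.1.2 := fun τ => by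
      simp [hg, H461.coe_smul_gl]
    have mpg := (mp g).comp (mpS γ)
    have emb := (MeasurableEquiv.smul g).measurableEmbedding.comp (embS γ)
    have t := fun z => tm_rp γ G p a0 d0 r.2.1.2 z _ (cg _)
    have pe : pw N w (rp (ι r)) = w r.1 := by
      simp only [pw, rp, ι, dvd_zero, mul_zero, sub_zero, true_and, ← Nat.cast_mul, e,
        Int.toNat_natCast]
      exact if_pos (Int.natCast_pos.2 (e ▸ mul_pos a0 d0))
    have re : rp (ι r) = ((r.2.1.1.1 : ℤ), (r.2.1.2 : ℤ), (0 : ℤ), (r.2.1.1.2 : ℤ)) := rfl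
    have n1 : (1 : ℝ) ≤ r.1 := by exact_mod_cast e ▸ mul_pos a0 d0
    have bd : ∀ z, ‖f r (g • γ • z)‖ ≤ B * C / (π * m) * Real.exp (-(π * m / 2 * r.1)) *
        Mv.kk (π * m / 2) UpperHalfPlane.I z := fun z => by
      have := ex_le m0 (min_le_left _ _) (min_le_right _ _) n1 z
      have y := z.im_pos
      simp only [f, pe]
      rw [norm_mul, re, (t z).1, norm_mul, norm_conj, norm_mul, norm_mul,
        norm_pow, (t z).2, e, norm_real, ex, Real.norm_of_nonneg (Real.exp_pos _).le, ← ex]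
      calc _ = ‖w r.1‖ * (‖G (g • γ • z)‖ * (g • γ • z).im *
            (r.1 / z.im * ‖(z : ℂ)‖ * ex (r.1 * p.1, r.1 * p.2) z)) := by ring
        _ ≤ B * (C * _) := mul_le_mul (hB _) (mul_le_mul (hC _) this
            (mul_nonneg (by positivity) (Real.exp_pos _).le) C0)
            (mul_nonneg (mul_nonneg (norm_nonneg _) (im_pos _).le)
              (mul_nonneg (by positivity) (Real.exp_pos _).le)) B0
        _ = _ := by ring
    have i1 : Integrable fun z => f r (g • γ • z) := (ki.const_mul _).mono'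
      ((mf r).comp mpg.measurable).aestronglyMeasurable (.of_forall bd)
    refine ⟨_, i1, (mpg.integrable_comp_emb emb).1 i1, (mpg.integral_comp emb _).symm, ?_,
      fun z => ?_⟩
    · refine (mpg.integral_comp emb fun σ => ‖f r σ‖).symm.trans_le
        ((integral_mono i1.norm (ki.const_mul _) bd).trans ?_)
      rw [integral_const_mul, Mv.kk_val (by positivity), mul_right_comm]
      refine mul_le_mul_of_nonneg_left ?_ (by positivity)
      simp only [hρ, ι, Int.natAbs_natCast, ← Real.exp_nat_mul, ← Real.exp_add, Real.exp_le_exp]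
      have k1 : (r.2.1.1.1 : ℝ) ≤ r.1 := by exact_mod_cast e ▸ Nat.le_mul_of_pos_right _ d0
      have k2 : (r.2.1.1.2 : ℝ) ≤ r.1 := by exact_mod_cast e ▸ Nat.le_mul_of_pos_left _ a0
      have k3 : (r.2.1.2 : ℝ) ≤ r.2.1.1.2 := by exact_mod_cast b0.le
      have : 0 < π * m := by positivity
      nlinarith
    · simp only [f, pe]
      rw [re, (t z).1, e, ← cg, ofComplex_apply, div_pow, mul_div_assoc]
  choose f' i1 i2 i3 i4 i5 using key
  have ρ1 : ρ < 1 := Real.exp_lt_one_iff.2 (neg_lt_zero.2 (by positivity))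
  have g := summable_geometric_of_lt_one (Real.exp_pos _).le ρ1
  have g1 : Summable fun a : ℤ => ρ ^ a.natAbs := .of_nat_of_neg
    (by simpa only [Int.natAbs_natCast]) (by simpa only [Int.natAbs_neg, Int.natAbs_natCast])
  have := P004.H26.H86.sl_countable
  have u := unf (wt_wt (Gamma0 N)).meas (R := R) (ι := fun _ => Gamma0 N) (fun _ δ => δ.1)
    (fun _ => 2) (fun _ => by simpa using (wt_wt (Gamma0 N)).two) mf i2
    (Summable.mul_left _ (.of_nonneg_of_le (fun r => integral_nonneg fun _ => norm_nonneg _) i4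
      (((g1.mul_of_nonneg (g.mul_of_nonneg g (fun _ => by positivity) fun _ => by positivity)
      (fun _ => by positivity) fun _ => by positivity).mul_left _).comp_injective
      (Subtype.val_injective.comp inj))))
  have e : BB G (pw N w ∘ ym γ) p = fun τ => ∑' x : Σ _ : R, Gamma0 N, f x.1 (x.2.1⁻¹ • τ) :=
    funext fun τ => by
    rw [BB, ← Function.Injective.tsum_eq (g := fun x : Σ _ : R, Gamma0 N =>
      xm γ (act x.2.1 (rp (ι x.1))))]
    · refine tsum_congr fun x => ?_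
      simp only [f, Function.comp, ym_xm, pw_act w x.2.2, tm_act G p (h.s2.slash _ (inv_mem x.2.2)),
        ← xm_act]
      rfl
    · rintro ⟨r, δ, hδ⟩ ⟨r', δ', hδ'⟩ k
      obtain ⟨rfl, e⟩ := rp_inj ((ym_xm γ _).symm.trans ((congrArg (ym γ) k).trans (ym_xm γ _)))
      obtain rfl : r = r' := inj e
      rfl
    · intro X hX
      have k := left_ne_zero_of_mul hX
      obtain ⟨Y, rfl⟩ : ∃ Y, X = xm γ Y := ⟨_, (xm_ym γ X).symm⟩
      simp only [Function.comp, ym_xm, pw, ne_eq, ite_eq_right_iff, Classical.not_imp] at k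
      obtain ⟨⟨k1, k2⟩, k3⟩ := k
      obtain ⟨δ, ⟨⟨a, b, d⟩, ha, hb⟩, rfl⟩ := rp_surj (X := Y) k2.ne'
      have n : (act δ (a, b, 0, d)).1 * (act δ (a, b, 0, d)).2.2.2 -
          (act δ (a, b, 0, d)).2.1 * (act δ (a, b, 0, d)).2.2.1 = a * d := by
        simp only [act]
        linear_combination (a * d) * det1 δ
      simp only [rp, n] at k2 k3
      simp only [rp, act, mul_zero, add_zero] at k1 hb
      obtain ⟨a, rfl⟩ := Int.eq_ofNat_of_zero_le (pos_of_mul_pos_left k2 (by positivity)).le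
      rw [← Nat.cast_mul, Int.toNat_natCast] at k3
      exact ⟨⟨⟨a * d, ⟨(a, d), b⟩, Finset.mem_sigma.2 ⟨Nat.mem_divisorsAntidiagonal.2
        ⟨rfl, by exact_mod_cast k2.ne'⟩, Finset.mem_range.2 hb⟩⟩, δ, mem0.2
        ((Nat.isCoprime_iff_coprime.2 (hw _ k3).coprime_mul_right.symm).dvd_of_dvd_mul_right k1)⟩,
        rfl⟩
  rw [e]
  refine ⟨u.1, u.2.sigma fun n => ?_⟩
  refine (congrArg (HasSum _) ?_).mp (hasSum_fintype _)
  simp only [i3, Nat.cast_ofNat]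
  rw [← Finset.mul_sum, ← integral_finsetSum _ fun x _ => i1 _, JJ, ← integral_const_mul (w n * n * a n)]
  refine congrArg (fun x : ℂ => 2 * x) (integral_congr_ae (.of_forall fun z => ?_))
  simp only [i5, ← Finset.mul_sum, ← Finset.sum_mul, ← map_sum, ← Finset.sum_div]
  by_cases k : w n = 0
  · simp [k]
  rw [Finset.sum_coe_sort _ fun x : Σ _ : ℕ × ℕ, ℕ =>
    G (ofComplex ((x.1.1 * (γ • z : ℍ) + x.2) / x.1.2)) * x.1.1 ^ 2]
  rcases eq_or_ne n 0 with rfl | n0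
  · simp [Finset.sum_sigma]
  have j := jj_ne γ z
  rw [hecke h (hw n k) n0, sl_jj G,
    mul_div_assoc, mul_div_cancel_left₀ _ (pow_ne_zero 2 j)]
  simp only [map_mul, map_natCast, map_intCast]
  ring

end Vale.Agent.P014T.Rk
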